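import Vale.Agent.P188.H796.Unitary

/-!
P299, package D3 (groups): a group acting by isometries on a Euclidean space, properly
(finitely many elements move the origin a bounded amount) and coboundedly, has an abelian
subgroup of finite index acting by translations (Bieberbach's first theorem, with finite kernel).
-/

open Pointwise commutatorElement

namespace Vale.Agent.P299.H227

open Vale.Agent.P188.H796

universe u v

/-- Adapted from `Vale.Agent.P188.H796.Fd` (`real_virtAbelian`): real orthogonal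
finite-dimensional representations of groups of polynomial growth have virtually abelian image. -/
theorem real_virtAbelian' {D : ℕ} {G : Type u} [Group G] [Group.FG G] (hG : GrowthLE G D)
    {W : Type v} [NormedAddCommGroup W] [InnerProductSpace ℝ W] [FiniteDimensional ℝ W]
    (σ : G →* (W ≃ₗᵢ[ℝ] W)) :
    ∃ N : Subgroup G, N.FiniteIndex ∧ ∀ x ∈ N, ∀ y ∈ N, σ x * σ y = σ y * σ x := by
  classical
  let bs := stdOrthonormalBasis ℝ W
  let L : G →* (W →ₗ[ℝ] W) :=
    { toFun := fun g => (σ g).toLinearEquiv.toLinearMap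
      map_one' := by rw [map_one]; rfl
      map_mul' := fun g h => by rw [map_mul]; rfl }
  let A : G →* Matrix (Fin (Module.finrank ℝ W)) (Fin (Module.finrank ℝ W)) ℝ :=
    ((LinearMap.toMatrixOrthonormal bs : (W →ₗ[ℝ] W) ≃⋆ₐ[ℝ] _) : (W →ₗ[ℝ] W) →* _).comp L
  let B : G →* Matrix (Fin (Module.finrank ℝ W)) (Fin (Module.finrank ℝ W)) ℂ :=
    (RingHom.mapMatrix (m := Fin (Module.finrank ℝ W)) (algebraMap ℝ ℂ)).toMonoidHom.comp A
  let ρ : G →* (EuclideanSpace ℂ (Fin (Module.finrank ℝ W)) →L[ℂ]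
      EuclideanSpace ℂ (Fin (Module.finrank ℝ W))) :=
    { toFun := fun g => Matrix.toEuclideanCLM (𝕜 := ℂ) (B g)
      map_one' := by rw [map_one, map_one]
      map_mul' := fun g h => by rw [map_mul, map_mul] }
  have hA : ∀ g, A g = LinearMap.toMatrixOrthonormal bs (σ g).toLinearEquiv.toLinearMap :=
    fun g => rfl
  have hB : ∀ g, B g = (A g).map (algebraMap ℝ ℂ) := fun g => rfl
  have hρd : ∀ g, ρ g = Matrix.toEuclideanCLM (𝕜 := ℂ) (B g) := fun g => rfl
  have h1 : ∀ g, star (A g) * A g = 1 := by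
    intro g
    rw [hA, ← map_star, ← map_mul]
    have : star (σ g).toLinearEquiv.toLinearMap * (σ g).toLinearEquiv.toLinearMap = 1 := by
      refine LinearMap.ext fun x => ext_inner_left ℝ fun y => ?_
      show inner ℝ y (LinearMap.adjoint (σ g).toLinearEquiv.toLinearMap
        ((σ g).toLinearEquiv.toLinearMap x)) = inner ℝ y x
      rw [LinearMap.adjoint_inner_right]
      exact (σ g).inner_map_map y x
    rw [this, map_one]
  have h2 : ∀ g, star (B g) * B g = 1 := by
    intro g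
    have h3 : star (B g) = (star (A g)).map (algebraMap ℝ ℂ) := by
      rw [hB]
      ext i j
      simp [Matrix.star_apply]
    rw [h3, hB, ← Matrix.map_mul, h1]
    simp
  have hρ : IsoRep ρ := by
    intro g
    rw [ContinuousLinearMap.norm_map_iff_adjoint_comp_self]
    show star (ρ g) * ρ g = 1
    rw [hρd, ← map_star, ← map_mul, h2, map_one]
  obtain ⟨N, hN, hc⟩ := virtAbelian D _ G hG _ rfl ρ hρ
  refine ⟨N, hN, fun x hx y hy => ?_⟩
  have h3 := hc x hx y hy
  rw [← map_mul, ← map_mul, hρd, hρd] at h3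
  have h4 := (Matrix.toEuclideanCLM (𝕜 := ℂ)).injective h3
  rw [hB, hB] at h4
  have h5 : A (x * y) = A (y * x) := by
    ext i j
    have := congrFun (congrFun h4 i) j
    simpa using this
  rw [hA, hA] at h5
  have h6 := (LinearMap.toMatrixOrthonormal bs).injective h5
  rw [← map_mul, ← map_mul]
  exact LinearIsometryEquiv.ext fun v => LinearMap.congr_fun h6 v

/-- A subgroup `K` has finite index if there is a map with finite range whose fibres lie in
left cosets of `K`. -/
theorem finiteIndex_of_range_finite {G : Type u} [Group G] {X : Type*} (K : Subgroup G)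
    (f : G → X) (hf : (Set.range f).Finite) (h : ∀ x y, f x = f y → x⁻¹ * y ∈ K) :
    K.FiniteIndex := by
  have hfin : Finite (G ⧸ K) := by
    have : Finite (Set.range f) := hf.to_subtype
    refine Finite.of_injective
      (fun q : G ⧸ K => (⟨f q.out, Set.mem_range_self _⟩ : Set.range f)) ?_
    intro q q' hqq
    have e : f q.out = f q'.out := congrArg Subtype.val hqq
    rw [← Quotient.out_eq' q, ← Quotient.out_eq' q', QuotientGroup.eq]
    exact h _ _ e
  exact Subgroup.finiteIndex_of_finite_quotient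

section Cocycle

variable {G : Type u} [Group G] {E : Type v} [NormedAddCommGroup E] [InnerProductSpace ℝ E]
  {σ : G →* (E ≃ₗᵢ[ℝ] E)} {b : G → E}

theorem cocycle_one (hb : ∀ g h, b (g * h) = b g + σ g (b h)) : b 1 = 0 := by
  have h := hb 1 1
  rw [mul_one, map_one] at h
  have h2 : b 1 = b 1 + b 1 := h
  simpa using h2

theorem cocycle_div (hb : ∀ g h, b (g * h) = b g + σ g (b h)) (g h : G) :
    b (g⁻¹ * h) = σ g⁻¹ (b h - b g) := by
  have h1 := hb g⁻¹ g
  rw [inv_mul_cancel, cocycle_one hb] at h1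
  rw [hb, map_sub]
  have h2 : b g⁻¹ = -σ g⁻¹ (b g) := eq_neg_of_add_eq_zero_left h1.symm
  rw [h2]
  abel

theorem cocycle_div_norm (hb : ∀ g h, b (g * h) = b g + σ g (b h)) (g h : G) :
    ‖b (g⁻¹ * h)‖ = ‖b h - b g‖ := by
  rw [cocycle_div hb, LinearIsometryEquiv.norm_map]

theorem cocycle_mul_norm (hb : ∀ g h, b (g * h) = b g + σ g (b h)) (g h : G) :
    ‖b (g * h)‖ ≤ ‖b g‖ + ‖b h‖ := by
  rw [hb]
  refine (norm_add_le _ _).trans ?_
  rw [LinearIsometryEquiv.norm_map]

/-- A group with a proper cobounded affine isometric action is finitely generated. -/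
theorem cocycle_fg (hb : ∀ g h, b (g * h) = b g + σ g (b h))
    (hfin : ∀ R : ℝ, {g | ‖b g‖ ≤ R}.Finite) (hco : ∃ R : ℝ, ∀ x : E, ∃ g, ‖b g - x‖ ≤ R) :
    Group.FG G := by
  obtain ⟨R, hR⟩ := hco
  have hR0 : 0 ≤ R := by
    obtain ⟨g, hg⟩ := hR 0
    exact (norm_nonneg _).trans hg
  rw [Group.fg_iff]
  refine ⟨{g | ‖b g‖ ≤ 2 * R + 1}, ?_, hfin _⟩
  have key : ∀ n : ℕ, ∀ g, ‖b g‖ ≤ n → g ∈ Subgroup.closure {g | ‖b g‖ ≤ 2 * R + 1} := by
    intro n
    induction n with
    | zero =>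
      intro g hg
      refine Subgroup.subset_closure ?_
      show ‖b g‖ ≤ 2 * R + 1
      have : ‖b g‖ ≤ 0 := by exact_mod_cast hg
      linarith
    | succ n ih =>
      intro g hg
      by_cases hs : ‖b g‖ ≤ 2 * R + 1
      · exact Subgroup.subset_closure hs
      push Not at hs
      have hpos : 0 < ‖b g‖ := by linarith
      obtain ⟨h, hh⟩ := hR ((1 - (R + 1) / ‖b g‖) • b g)
      have hx : ‖(1 - (R + 1) / ‖b g‖) • b g‖ = ‖b g‖ - (R + 1) := by
        rw [norm_smul, Real.norm_of_nonneg]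
        · field_simp
        · rw [sub_nonneg, div_le_one hpos]
          linarith
      have hy : ‖b g - (1 - (R + 1) / ‖b g‖) • b g‖ = R + 1 := by
        have : b g - (1 - (R + 1) / ‖b g‖) • b g = ((R + 1) / ‖b g‖) • b g := by
          rw [sub_smul, one_smul, sub_sub_cancel]
        rw [this, norm_smul, Real.norm_of_nonneg (by positivity)]
        field_simp
      have h1 : ‖b h‖ ≤ n := by
        have h2 : ‖b h‖ ≤ ‖b h - (1 - (R + 1) / ‖b g‖) • b g‖ +
            ‖(1 - (R + 1) / ‖b g‖) • b g‖ := by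
          have := norm_add_le (b h - (1 - (R + 1) / ‖b g‖) • b g)
            ((1 - (R + 1) / ‖b g‖) • b g)
          rwa [sub_add_cancel] at this
        push_cast at hg
        linarith
      have h2 : ‖b (h⁻¹ * g)‖ ≤ 2 * R + 1 := by
        rw [cocycle_div_norm hb]
        have h3 : ‖b g - b h‖ ≤ ‖b g - (1 - (R + 1) / ‖b g‖) • b g‖ +
            ‖(1 - (R + 1) / ‖b g‖) • b g - b h‖ := by
          have := norm_add_le (b g - (1 - (R + 1) / ‖b g‖) • b g)
            ((1 - (R + 1) / ‖b g‖) • b g - b h)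
          rwa [sub_add_sub_cancel] at this
        rw [norm_sub_rev ((1 - (R + 1) / ‖b g‖) • b g)] at h3
        linarith
      have h3 : g = h * (h⁻¹ * g) := by group
      rw [h3]
      exact Subgroup.mul_mem _ (ih h h1) (Subgroup.subset_closure h2)
  rw [Subgroup.eq_top_iff']
  intro g
  obtain ⟨n, hn⟩ := exists_nat_ge ‖b g‖
  exact key n g hn

variable [FiniteDimensional ℝ E]

/-- Counting elements in balls. -/
theorem cocycle_card (hb : ∀ g h, b (g * h) = b g + σ g (b h))
    (hfin : ∀ R : ℝ, {g | ‖b g‖ ≤ R}.Finite) (r : ℕ) :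
    {g | ‖b g‖ ≤ r}.ncard ≤ {g | ‖b g‖ ≤ Module.finrank ℝ E}.ncard *
      (2 * r + 2) ^ Module.finrank ℝ E := by
  classical
  let bs := stdOrthonormalBasis ℝ E
  let f : G → (Fin (Module.finrank ℝ E) → ℤ) := fun g i => ⌊bs.repr (b g) i⌋
  have hbox : ∀ g ∈ (hfin r).toFinset, f g ∈
      Fintype.piFinset (fun _ : Fin (Module.finrank ℝ E) => Finset.Icc (-(r : ℤ) - 1) r) := by
    intro g hg
    rw [Set.Finite.mem_toFinset] at hg
    have hg' : ‖b g‖ ≤ r := hg
    rw [Fintype.mem_piFinset]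
    intro i
    have h1 : |bs.repr (b g) i| ≤ r := by
      have h2 : ‖bs.repr (b g) i‖ ≤ ‖bs.repr (b g)‖ := PiLp.norm_apply_le _ i
      rw [LinearIsometryEquiv.norm_map, Real.norm_eq_abs] at h2
      exact h2.trans hg'
    rw [abs_le] at h1
    rw [Finset.mem_Icc]
    constructor
    · show -(r : ℤ) - 1 ≤ ⌊bs.repr (b g) i⌋
      rw [Int.le_floor]
      push_cast
      linarith [h1.1]
    · show ⌊bs.repr (b g) i⌋ ≤ (r : ℤ)
      have h3 : (⌊bs.repr (b g) i⌋ : ℝ) ≤ r := (Int.floor_le _).trans h1.2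
      exact_mod_cast h3
  have hfib : ∀ y ∈ Fintype.piFinset (fun _ : Fin (Module.finrank ℝ E) =>
      Finset.Icc (-(r : ℤ) - 1) r), ({a ∈ (hfin r).toFinset | f a = y} : Finset G).card ≤
        {g | ‖b g‖ ≤ Module.finrank ℝ E}.ncard := by
    intro y _
    rcases ({a ∈ (hfin r).toFinset | f a = y} : Finset G).eq_empty_or_nonempty with he | ⟨g₀, hg₀⟩
    · rw [he]; simp
    rw [Finset.mem_filter] at hg₀
    rw [← Set.ncard_coe_finset]
    refine Set.ncard_le_ncard_of_injOn (fun g => g₀⁻¹ * g) ?_ ?_ (hfin _)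
    · intro g hg
      rw [Finset.coe_filter] at hg
      have hg2 : f g = y := hg.2
      show ‖b (g₀⁻¹ * g)‖ ≤ Module.finrank ℝ E
      rw [cocycle_div_norm hb, ← bs.repr.norm_map, EuclideanSpace.norm_eq, Real.sqrt_le_left
        (Nat.cast_nonneg _)]
      have h1 : ∀ i, ‖(bs.repr (b g - b g₀)) i‖ ^ 2 ≤ 1 := by
        intro i
        have h2 : f g i = f g₀ i := by rw [hg2, hg₀.2]
        have h3 : |bs.repr (b g) i - bs.repr (b g₀) i| < 1 := Int.abs_sub_lt_one_of_floor_eq_floor h2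
        have h4 : (bs.repr (b g - b g₀)) i = bs.repr (b g) i - bs.repr (b g₀) i := by
          rw [map_sub]; rfl
        rw [h4, Real.norm_eq_abs]
        have h5 := abs_nonneg (bs.repr (b g) i - bs.repr (b g₀) i)
        nlinarith
      refine (Finset.sum_le_sum fun i _ => h1 i).trans ?_
      rw [Finset.sum_const, Finset.card_univ, Fintype.card_fin, nsmul_eq_mul, mul_one]
      rcases Nat.eq_zero_or_pos (Module.finrank ℝ E) with h0 | h0
      · rw [h0]; simp
      · have : (1 : ℝ) ≤ Module.finrank ℝ E := by exact_mod_cast h0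
        nlinarith
    · intro g _ g' _ h
      exact mul_left_cancel h
  have h := Finset.card_le_mul_card_image_of_maps_to hbox _ hfib
  rw [Fintype.card_piFinset, Finset.prod_const, Finset.card_univ, Fintype.card_fin,
    Int.card_Icc] at h
  have e1 : {g | ‖b g‖ ≤ (r : ℝ)}.ncard = (hfin r).toFinset.card :=
    Set.ncard_eq_toFinset_card _ (hfin r)
  have e2 : ((r : ℤ) + 1 - (-(r : ℤ) - 1)).toNat = 2 * r + 2 := by omega
  rw [e1]
  rwa [e2] at h

/-- A group with a proper affine isometric action on a Euclidean space has polynomial growth. -/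
theorem cocycle_growth (hb : ∀ g h, b (g * h) = b g + σ g (b h))
    (hfin : ∀ R : ℝ, {g | ‖b g‖ ≤ R}.Finite) : GrowthLE G (Module.finrank ℝ E) := by
  intro F hF
  obtain ⟨L, hL⟩ : ∃ L : ℕ, ∀ g ∈ F, ‖b g‖ ≤ L := by
    obtain ⟨C, hC⟩ := (hF.image fun g => ‖b g‖).bddAbove
    obtain ⟨L, hL⟩ := exists_nat_ge C
    exact ⟨L, fun g hg => (hC (Set.mem_image_of_mem _ hg)).trans hL⟩
  have hpow : ∀ n : ℕ, ∀ g ∈ F ^ n, ‖b g‖ ≤ (n * L : ℕ) := by
    intro n
    induction n with
    | zero =>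
      intro g hg
      rw [pow_zero, Set.mem_one] at hg
      rw [hg, cocycle_one hb]
      simp
    | succ n ih =>
      intro g hg
      rw [pow_succ, Set.mem_mul] at hg
      obtain ⟨x, hx, y, hy, rfl⟩ := hg
      refine (cocycle_mul_norm hb x y).trans ?_
      have h1 := ih x hx
      have h2 := hL y hy
      push_cast at h1 ⊢
      linarith
  refine ⟨{g | ‖b g‖ ≤ Module.finrank ℝ E}.ncard * (2 * (L + 1)) ^ Module.finrank ℝ E,
    fun n => ?_⟩
  refine (Set.ncard_le_ncard (fun g hg => ?_) (hfin (n * L : ℕ))).trans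
    ((cocycle_card hb hfin (n * L)).trans ?_)
  · exact hpow n g hg
  · rw [mul_assoc, ← mul_pow]
    refine Nat.mul_le_mul_left _ (Nat.pow_le_pow_left ?_ _)
    nlinarith

/-- The main theorem in cocycle form. -/
theorem cocycle_virtAbelian (hb : ∀ g h, b (g * h) = b g + σ g (b h))
    (hfin : ∀ R : ℝ, {g | ‖b g‖ ≤ R}.Finite) (hco : ∃ R : ℝ, ∀ x : E, ∃ g, ‖b g - x‖ ≤ R) :
    ∃ N : Subgroup G, N.FiniteIndex ∧ N.FG ∧ (∀ g ∈ N, ∀ h ∈ N, g * h = h * g) ∧
      ∀ g ∈ N, σ g = 1 := by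
  classical
  have hfg : Group.FG G := cocycle_fg hb hfin hco
  obtain ⟨N₀, hN₀, hc₀⟩ := real_virtAbelian' (cocycle_growth hb hfin) σ
  -- a normal subgroup of finite index with commuting linear parts
  let N₁ : Subgroup G := N₀.normalCore
  have hN₁ : N₁.FiniteIndex := inferInstance
  have hN₁n : N₁.Normal := inferInstance
  have hc₁ : ∀ x ∈ N₁, ∀ y ∈ N₁, σ x * σ y = σ y * σ x := fun x hx y hy =>
    hc₀ x (N₀.normalCore_le hx) y (N₀.normalCore_le hy)
  -- the translations in it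
  let T : Subgroup G := N₁ ⊓ σ.ker
  have hTn : T.Normal := inferInstance
  have hconj : ∀ t ∈ T, ∀ h, b (h * t * h⁻¹) = σ h (b t) := by
    intro t ht h
    have h1 : σ t = 1 := ht.2
    have h2 : b (h * h⁻¹) = b h + σ h (b h⁻¹) := hb _ _
    rw [mul_inv_cancel, cocycle_one hb] at h2
    rw [mul_assoc, hb, hb, h1, map_add]
    have h3 : σ h ((1 : E ≃ₗᵢ[ℝ] E) (b h⁻¹)) = σ h (b h⁻¹) := rfl
    rw [h3, add_left_comm, ← h2, add_zero]
  -- its span
  let V : Submodule ℝ E := Submodule.span ℝ (b '' (T : Set G))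
  obtain ⟨A, hAT, hAV⟩ : ∃ A : Finset G, (A : Set G) ⊆ T ∧
      Submodule.span ℝ (b '' (A : Set G)) = V := by
    have hVfg : (Submodule.span ℝ (b '' (T : Set G))).FG := IsNoetherian.noetherian _
    obtain ⟨s, hs, hs2⟩ := Submodule.fg_span_iff_fg_span_finset_subset _ |>.1 hVfg
    rw [Set.subset_image_iff] at hs
    obtain ⟨A', hA', hA's⟩ := hs
    have h1 : ∀ y ∈ (s : Set E), ∃ x : G, x ∈ T ∧ b x = y := by
      rw [← hA's]
      rintro _ ⟨x, hx, rfl⟩
      exact ⟨x, hA' hx, rfl⟩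
    choose! c hc using h1
    refine ⟨s.image c, ?_, ?_⟩
    · intro x hx
      rw [Finset.coe_image] at hx
      obtain ⟨y, hy, rfl⟩ := hx
      exact (hc y hy).1
    · rw [Finset.coe_image, Set.image_image]
      have : (fun x => b (c x)) '' (s : Set E) = s := by
        refine Set.EqOn.image_eq_self fun x hx => ?_
        exact (hc x hx).2
      rw [this]
      exact hs2.symm
  -- the pointwise stabilizer of `V`
  let St : Subgroup G :=
    { carrier := {h | ∀ v ∈ V, σ h v = v}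
      one_mem' := fun v _ => by rw [map_one]; rfl
      mul_mem' := fun {x y} hx hy v hv => by
        rw [map_mul]
        show σ x (σ y v) = v
        rw [hy v hv, hx v hv]
      inv_mem' := fun {x} hx v hv => by
        rw [map_inv]
        have h1 : (σ x)⁻¹ (σ x v) = v := (σ x).symm_apply_apply v
        rwa [hx v hv] at h1 }
  have hSt : St.FiniteIndex := by
    refine finiteIndex_of_range_finite St (fun h => fun t : A => σ h (b t)) ?_ ?_
    · refine (Set.Finite.pi' (t := fun t : A => b '' {g | ‖b g‖ ≤ ‖b t‖})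
        fun t => (hfin _).image b).subset ?_
      rintro _ ⟨h, rfl⟩ t
      refine ⟨h * t * h⁻¹, ?_, hconj t (hAT t.2) h⟩
      show ‖b (h * t * h⁻¹)‖ ≤ ‖b t‖
      rw [hconj t (hAT t.2) h, LinearIsometryEquiv.norm_map]
    · intro x y hxy v hv
      rw [← hAV] at hv
      induction hv using Submodule.span_induction with
      | mem v hv =>
        obtain ⟨t, ht, rfl⟩ := hv
        have h1 : σ x (b t) = σ y (b t) := congrFun hxy ⟨t, ht⟩
        rw [map_mul]
        show σ x⁻¹ (σ y (b t)) = b t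
        rw [← h1, map_inv]
        exact (σ x).symm_apply_apply _
      | zero => rw [map_zero]
      | add v w _ _ hv hw => rw [map_add, hv, hw]
      | smul r v _ hv => rw [map_smul, hv]
  let N₂ : Subgroup G := N₁ ⊓ St
  have hN₂ : N₂.FiniteIndex := inferInstance
  -- the subgroup `N₂` is cobounded
  obtain ⟨R, hR⟩ : ∃ R : ℝ, ∀ x : E, ∃ g ∈ N₂, ‖b g - x‖ ≤ R := by
    obtain ⟨R, hR⟩ := hco
    have : Finite (G ⧸ N₂) := inferInstance
    obtain ⟨C, hC⟩ := (Set.finite_range fun q : G ⧸ N₂ => ‖b q.out‖).bddAbove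
    refine ⟨C + R, fun x => ?_⟩
    obtain ⟨g, hg⟩ := hR x
    refine ⟨g * ((g⁻¹ : G) : G ⧸ N₂).out, ?_, ?_⟩
    · have h1 : ((g⁻¹ : G) : G ⧸ N₂) = ((((g⁻¹ : G) : G ⧸ N₂).out : G) : G ⧸ N₂) :=
        (QuotientGroup.out_eq' _).symm
      rw [QuotientGroup.eq, inv_inv] at h1
      exact h1
    · have h1 : ‖b (((g⁻¹ : G) : G ⧸ N₂).out)‖ ≤ C := hC (Set.mem_range_self _)
      rw [hb]
      have h2 := norm_add_le (b g - x) (σ g (b (((g⁻¹ : G) : G ⧸ N₂).out)))
      rw [LinearIsometryEquiv.norm_map] at h2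
      have h3 : b g + σ g (b (((g⁻¹ : G) : G ⧸ N₂).out)) - x =
          b g - x + σ g (b (((g⁻¹ : G) : G ⧸ N₂).out)) := by abel
      rw [h3]
      linarith
  -- displacement vectors are orthogonal to `V`
  have horth : ∀ h ∈ N₂, ∀ w, ∀ v ∈ V, inner ℝ v (σ h w - w) = 0 := by
    intro h hh w v hv
    rw [inner_sub_right]
    nth_rewrite 1 [← hh.2 v hv]
    rw [LinearIsometryEquiv.inner_map_map, sub_self]
  have hcomm : ∀ x ∈ N₂, ∀ h ∈ N₂, x * h * x⁻¹ * h⁻¹ ∈ T := by
    intro x hx h hh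
    refine ⟨N₁.mul_mem (N₁.mul_mem (N₁.mul_mem hx.1 hh.1) (N₁.inv_mem hx.1)) (N₁.inv_mem hh.1), ?_⟩
    show σ (x * h * x⁻¹ * h⁻¹) = 1
    rw [map_mul, map_mul, map_mul, map_inv, map_inv, hc₁ x hx.1 h hh.1]
    group
  have hkey : ∀ x ∈ N₂, ∀ h ∈ N₂, σ x (b h) - b h = σ h (b x) - b x := by
    intro x hx h hh
    have h1 : x * h = (x * h * x⁻¹ * h⁻¹) * (h * x) := by group
    have h2 : σ (x * h * x⁻¹ * h⁻¹) = 1 := (hcomm x hx h hh).2
    have h3 : b (x * h) = b (x * h * x⁻¹ * h⁻¹) + b (h * x) := by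
      conv_lhs => rw [h1, hb, h2]
      rfl
    rw [hb, hb h x] at h3
    have h4 : (σ x (b h) - b h) - (σ h (b x) - b x) ∈ V := by
      have : (σ x (b h) - b h) - (σ h (b x) - b x) = b (x * h * x⁻¹ * h⁻¹) := by
        have h5 := sub_eq_of_eq_add h3
        rw [← h5]
        abel
      rw [this]
      exact Submodule.subset_span ⟨_, hcomm x hx h hh, rfl⟩
    have h5 : inner ℝ ((σ x (b h) - b h) - (σ h (b x) - b x))
        ((σ x (b h) - b h) - (σ h (b x) - b x)) = (0 : ℝ) := by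
      have e : inner ℝ ((σ x (b h) - b h) - (σ h (b x) - b x))
          ((σ x (b h) - b h) - (σ h (b x) - b x)) =
          inner ℝ ((σ x (b h) - b h) - (σ h (b x) - b x)) (σ x (b h) - b h) -
          inner ℝ ((σ x (b h) - b h) - (σ h (b x) - b x)) (σ h (b x) - b x) :=
        inner_sub_right _ _ _
      rw [e, horth x hx _ _ h4, horth h hh _ _ h4, sub_zero]
    exact sub_eq_zero.1 (inner_self_eq_zero.1 h5)
  -- hence linear parts are trivial
  have hlin : ∀ h ∈ N₂, σ h = 1 := by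
    intro h hh
    have hbd : ∀ w, ‖σ h w - w‖ ≤ 2 * ‖b h‖ + 2 * R := by
      intro w
      obtain ⟨x, hx, hxw⟩ := hR w
      have h1 : σ h w - w = (σ x (b h) - b h) - (σ h (b x - w) - (b x - w)) := by
        rw [hkey x hx h hh, map_sub]
        abel
      rw [h1]
      have h2 := norm_sub_le (σ x (b h) - b h) (σ h (b x - w) - (b x - w))
      have h3 := norm_sub_le (σ x (b h)) (b h)
      have h4 := norm_sub_le (σ h (b x - w)) (b x - w)
      rw [LinearIsometryEquiv.norm_map] at h3 h4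
      linarith
    refine LinearIsometryEquiv.ext fun w => ?_
    show σ h w = w
    by_contra hne
    have hpos : 0 < ‖σ h w - w‖ := norm_pos_iff.2 (sub_ne_zero.2 hne)
    obtain ⟨n, hn⟩ := exists_nat_gt ((2 * ‖b h‖ + 2 * R) / ‖σ h w - w‖)
    rw [div_lt_iff₀ hpos] at hn
    have h1 := hbd ((n : ℝ) • w)
    rw [map_smul, ← smul_sub, norm_smul, Real.norm_of_nonneg (Nat.cast_nonneg _)] at h1
    linarith
  -- commutators lie in a finite set
  have hb0 : ∀ x ∈ N₂, ∀ h ∈ N₂, b (x * h * x⁻¹ * h⁻¹) = 0 := by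
    intro x hx h hh
    have h1 : x * h = (x * h * x⁻¹ * h⁻¹) * (h * x) := by group
    have h2 : σ (x * h * x⁻¹ * h⁻¹) = 1 := (hcomm x hx h hh).2
    have h3 : b (x * h) = b (x * h * x⁻¹ * h⁻¹) + b (h * x) := by
      conv_lhs => rw [h1, hb, h2]
      rfl
    rw [hb, hb h x, hlin x hx, hlin h hh] at h3
    have h4 : b x + b h = b (x * h * x⁻¹ * h⁻¹) + (b h + b x) := h3
    rw [add_comm (b h)] at h4
    simpa using h4
  have hN₂fg : Group.FG N₂ := Subgroup.fg_of_index_ne_zero N₂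
  have hcs : Finite (commutatorSet N₂) := by
    have h0 : {g : G | ‖b g‖ ≤ 0}.Finite := hfin 0
    have h1 : ((fun x : N₂ => (x : G)) ⁻¹' {g : G | ‖b g‖ ≤ 0}).Finite :=
      h0.preimage Subtype.val_injective.injOn
    refine (h1.subset ?_).to_subtype
    rintro _ ⟨x, y, rfl⟩
    show ‖b ((⁅x, y⁆ : N₂) : G)‖ ≤ 0
    have h2 : ((⁅x, y⁆ : N₂) : G) = x * y * (x : G)⁻¹ * (y : G)⁻¹ := by
      rw [commutatorElement_def]; rfl
    rw [h2, hb0 x x.2 y y.2, norm_zero]
  have hcen : (Subgroup.center N₂).FiniteIndex := inferInstance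
  have hfi : ((Subgroup.center N₂).map N₂.subtype).FiniteIndex := by
    refine ⟨?_⟩
    rw [Subgroup.index_map_subtype]
    exact mul_ne_zero hcen.index_ne_zero hN₂.index_ne_zero
  refine ⟨(Subgroup.center N₂).map N₂.subtype, hfi, ?_, ?_, ?_⟩
  · rw [← Group.fg_iff_subgroup_fg]
    exact Subgroup.fg_of_index_ne_zero _
  · rintro _ ⟨x, hx, rfl⟩ _ ⟨y, hy, rfl⟩
    have h1 : x * y = y * x := (Subgroup.mem_center_iff.1 hy x)
    exact congrArg Subtype.val h1
  · rintro _ ⟨x, hx, rfl⟩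
    exact hlin x x.2

end Cocycle

/-- The linear part of an action by affine isometries. -/
noncomputable def lin {G : Type u} [Group G] {E : Type v} [NormedAddCommGroup E]
    [InnerProductSpace ℝ E] (ρ : G →* (E ≃ᵃⁱ[ℝ] E)) : G →* (E ≃ₗᵢ[ℝ] E) where
  toFun g := (ρ g).linearIsometryEquiv
  map_one' := by
    rw [map_one]
    rfl
  map_mul' g h := by
    rw [map_mul]
    rfl

theorem lin_apply {G : Type u} [Group G] {E : Type v} [NormedAddCommGroup E]
    [InnerProductSpace ℝ E] (ρ : G →* (E ≃ᵃⁱ[ℝ] E)) (g : G) (x : E) :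
    ρ g x = lin ρ g x + ρ g 0 := by
  have h := (ρ g).map_vadd 0 x
  rw [vadd_eq_add, vadd_eq_add, add_zero] at h
  exact h

/-- **Package D3.** A group acting properly and coboundedly by isometries on a Euclidean space has
an abelian subgroup of finite index acting by translations. -/
theorem exists_translation_subgroup {G : Type u} [Group G] {E : Type v} [NormedAddCommGroup E]
    [InnerProductSpace ℝ E] [FiniteDimensional ℝ E] (ρ : G →* (E ≃ᵃⁱ[ℝ] E))
    (hfin : ∀ R : ℝ, {g | ‖ρ g 0‖ ≤ R}.Finite)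
    (hco : ∃ R : ℝ, ∀ x : E, ∃ g, ‖ρ g 0 - x‖ ≤ R) :
    ∃ N : Subgroup G, N.FiniteIndex ∧ N.FG ∧ (∀ g ∈ N, ∀ h ∈ N, g * h = h * g) ∧
      ∀ g ∈ N, ∃ v : E, ∀ x, ρ g x = x + v := by
  obtain ⟨N, h1, h1', h2, h3⟩ := cocycle_virtAbelian (σ := lin ρ) (b := fun g => ρ g 0) (fun g h => by
    show ρ (g * h) 0 = ρ g 0 + lin ρ g (ρ h 0)
    rw [map_mul]
    show ρ g (ρ h 0) = ρ g 0 + lin ρ g (ρ h 0)
    rw [lin_apply ρ g (ρ h 0), add_comm]) hfin hco
  refine ⟨N, h1, h1', h2, fun g hg => ⟨ρ g 0, fun x => ?_⟩⟩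
  rw [lin_apply, h3 g hg]
  rfl

end Vale.Agent.P299.H227
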