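import Vale.Agent.P299.H723.D.Defs
import Vale.Agent.P299.H227.D3

/-!
P299, package D3, glue: a finite index abelian subgroup of the deck group acts on the flat factor
by translations.
-/

open scoped Manifold ContDiff ComplexOrder Topology
open Vale.Agent.P272.K Vale.Agent.P278.H837 Vale.Agent.P299.D

noncomputable section

namespace Vale.Agent.P299.H227

section Chain

variable {d : ℕ} {Y Z : Type*} [TopologicalSpace Y] [ChartedSpace (Cm d) Y]
  [IsManifold 𝓘(ℂ, Cm d) ω Y] [TopologicalSpace Z] [ChartedSpace (Cm d) Z]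
  [IsManifold 𝓘(ℂ, Cm d) ω Z]

theorem holo_chart {f : Y → Z} (hf : ContMDiff 𝓘(ℂ, Cm d) 𝓘(ℂ, Cm d) ω f) {e : Chart d Y} {y : Y}
    {e' : Chart d Z} (h : At e y) (h' : At e' (f y)) :
    DifferentiableAt ℂ (fun z => e' (f (e.symm z))) (e y) := by
  have h1 : ContMDiffAt 𝓘(ℂ, Cm d) 𝓘(ℂ, Cm d) ω (fun z => e' (f (e.symm z))) (e y) := by
    have h2 := chart_symm_contMDiffAt h.1 h.mem_target
    have h3 : ContMDiffAt 𝓘(ℂ, Cm d) 𝓘(ℂ, Cm d) ω (fun z => f (e.symm z)) (e y) :=
      (hf (e.symm (e y))).comp (e y) h2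
    refine ContMDiffAt.comp (e y) (g := e') ?_ h3
    rw [h.left_inv]
    exact chart_contMDiffAt h'
  rw [contMDiffAt_iff_contDiffAt] at h1
  exact h1.differentiableAt (by simp)

theorem holo_flat {f : Y → Cm d} (hf : ContMDiff 𝓘(ℂ, Cm d) 𝓘(ℂ, Cm d) ω f) {e : Chart d Y}
    {y : Y} (h : At e y) : DifferentiableAt ℂ (fun z => f (e.symm z)) (e y) := by
  have h1 : ContMDiffAt 𝓘(ℂ, Cm d) 𝓘(ℂ, Cm d) ω (fun z => f (e.symm z)) (e y) :=
    (hf (e.symm (e y))).comp (e y) (chart_symm_contMDiffAt h.1 h.mem_target)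
  rw [contMDiffAt_iff_contDiffAt] at h1
  exact h1.differentiableAt (by simp)

omit [IsManifold 𝓘(ℂ, Cm d) ω Y] [ChartedSpace (Cm d) Y] in
theorem pull_flat (f : Y → Cm d) {e : Chart d Y} {y : Y} :
    pullM f (stdM d) e (e y) = (jmat (fun z => f (e.symm z)) (e (e.symm (e y)))).transpose *
      (jmat (fun z => f (e.symm z)) (e (e.symm (e y)))).map (starRingEnd ℂ) := by
  unfold pullM stdM
  rw [Matrix.mul_one]
  rfl

omit [IsManifold 𝓘(ℂ, Cm d) ω Y] [IsManifold 𝓘(ℂ, Cm d) ω Z] in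
theorem pull_at (f : Y → Z) (w : FormM d Z) {e : Chart d Y} {y : Y} (h : At e y) :
    pullM f w e (e y) =
      (jmat (fun z => chartAt (Cm d) (f y) (f (e.symm z))) (e y)).transpose *
      w (chartAt (Cm d) (f y)) (chartAt (Cm d) (f y) (f y)) *
      (jmat (fun z => chartAt (Cm d) (f y) (f (e.symm z))) (e y)).map (starRingEnd ℂ) := by
  unfold pullM
  rw [h.left_inv]
  rfl

/-- A holomorphic isometry of a flat manifold, read through the developing map, has unitary
Jacobian matrices. -/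
theorem jmat_unitary {w : FormM d Y} (hw : IsHermitian w) (f : Y ≃ₜ Cm d)
    (hf : ContMDiff 𝓘(ℂ, Cm d) 𝓘(ℂ, Cm d) ω f) (hf' : ContMDiff 𝓘(ℂ, Cm d) 𝓘(ℂ, Cm d) ω f.symm)
    (hiso : ∀ (e : Chart d Y) y, At e y → w e (e y) = pullM f (stdM d) e (e y))
    {r : Y → Y} (hr : ContMDiff 𝓘(ℂ, Cm d) 𝓘(ℂ, Cm d) ω r)
    (hriso : ∀ (e : Chart d Y) y, At e y → pullM r w e (e y) = w e (e y)) (z : Cm d) :
    (jmat (fun u => f (r (f.symm u))) z).transpose *
      (jmat (fun u => f (r (f.symm u))) z).map (starRingEnd ℂ) = 1 := by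
  set y := f.symm z with hy
  set e := chartAt (Cm d) y with he
  set e' := chartAt (Cm d) (r y) with he'
  have ha : At e y := ⟨chart_mem_atlas _ _, mem_chart_source _ _⟩
  have ha' : At e' (r y) := ⟨chart_mem_atlas _ _, mem_chart_source _ _⟩
  have hfy : f y = z := by rw [hy, f.apply_symm_apply]
  -- the four Jacobians
  set J := jmat (fun u => f (r (f.symm u))) z with hJ
  set D := jmat (fun u => f (e.symm u)) (e y) with hD
  set D' := jmat (fun u => f (e'.symm u)) (e' (r y)) with hD'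
  set R := jmat (fun u => e' (r (e.symm u))) (e y) with hR
  have hτ : DifferentiableAt ℂ (fun u => f (r (f.symm u))) z := by
    have h1 : ContMDiff 𝓘(ℂ, Cm d) 𝓘(ℂ, Cm d) ω (fun u => f (r (f.symm u))) :=
      (hf.comp hr).comp hf'
    rw [contMDiff_iff_contDiff] at h1
    exact (h1.differentiable (by simp)) z
  have hchain : J * D = D' * R := by
    have e1 : (fun u => f (r (f.symm (f (e.symm u))))) =ᶠ[𝓝 (e y)]
        fun u => f (e'.symm (e' (r (e.symm u)))) := by
      have h2 : ∀ᶠ u in 𝓝 (e y), r (e.symm u) ∈ e'.source := by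
        have hc : ContinuousAt (fun u => r (e.symm u)) (e y) :=
          (hr.continuous.continuousAt).comp (e.continuousAt_symm ha.mem_target)
        refine hc.eventually (e'.open_source.mem_nhds ?_)
        show r (e.symm (e y)) ∈ e'.source
        rw [ha.left_inv]
        exact ha'.2
      filter_upwards [h2] with u hu
      rw [e'.left_inv hu, f.symm_apply_apply]
    have e2 := jmat_congr e1
    have h3 : f (e.symm (e y)) = z := by rw [ha.left_inv, hfy]
    have h4 : e' (r (e.symm (e y))) = e' (r y) := by rw [ha.left_inv]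
    have e3 := jmat_comp (τ := fun u => f (e.symm u)) (σ := fun u => f (r (f.symm u))) (z := e y)
      (by rw [h3]; exact hτ) (holo_flat hf ha)
    have e4 := jmat_comp (τ := fun u => e' (r (e.symm u))) (σ := fun u => f (e'.symm u))
      (z := e y) (by rw [h4]; exact holo_flat hf ha') (holo_chart hr ha ha')
    rw [h3] at e3
    rw [h4] at e4
    rw [e3, e4] at e2
    exact e2
  have k1 : w e (e y) = D.transpose * D.map (starRingEnd ℂ) := by
    rw [hiso e y ha, pull_flat, ha.left_inv]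
  have k2 : w e' (e' (r y)) = D'.transpose * D'.map (starRingEnd ℂ) := by
    rw [hiso e' (r y) ha', pull_flat, ha'.left_inv]
  have k3 : R.transpose * w e' (e' (r y)) * R.map (starRingEnd ℂ) = w e (e y) := by
    rw [← hriso e y ha, pull_at r w ha]
  have hdet : D.det ≠ 0 := by
    intro h0
    have h1 := (hw.posDef e y ha).det_pos
    rw [k1, Matrix.det_mul, Matrix.det_transpose, h0, zero_mul] at h1
    exact lt_irrefl _ h1
  have hDu : IsUnit D.det := isUnit_iff_ne_zero.2 hdet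
  have k4 : D.transpose * (J.transpose * J.map (starRingEnd ℂ)) * D.map (starRingEnd ℂ) =
      D.transpose * 1 * D.map (starRingEnd ℂ) := by
    have h1 : D.transpose * (J.transpose * J.map (starRingEnd ℂ)) * D.map (starRingEnd ℂ) =
        (J * D).transpose * (J * D).map (starRingEnd ℂ) := by
      rw [Matrix.transpose_mul, Matrix.map_mul]
      simp only [Matrix.mul_assoc]
    rw [h1, hchain, Matrix.transpose_mul, Matrix.map_mul, Matrix.mul_one, ← k1, ← k3, k2]
    simp only [Matrix.mul_assoc]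
  have hDt : IsUnit D.transpose := by
    rw [Matrix.isUnit_iff_isUnit_det, Matrix.det_transpose]
    exact hDu
  have hDm : IsUnit (D.map (starRingEnd ℂ)) := by
    rw [Matrix.isUnit_iff_isUnit_det]
    have : (D.map (starRingEnd ℂ)).det = (starRingEnd ℂ) D.det :=
      ((starRingEnd ℂ).map_det D).symm
    rw [this]
    exact hDu.map _
  exact hDt.mul_left_cancel (hDm.mul_right_cancel k4)

end Chain

section Euclid

variable {d : ℕ}

theorem norm_toLp_mulVec {J : Matrix (Fin d) (Fin d) ℂ}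
    (hJ : J.transpose * J.map (starRingEnd ℂ) = 1) (v : Cm d) :
    ‖(WithLp.toLp 2 (J.mulVec v) : EuclideanSpace ℂ (Fin d))‖ =
      ‖(WithLp.toLp 2 v : EuclideanSpace ℂ (Fin d))‖ := by
  have h1 : J.conjTranspose * J = 1 := by
    have h2 := congrArg (fun A : Matrix (Fin d) (Fin d) ℂ => A.map (starRingEnd ℂ)) hJ
    simp only [Matrix.map_mul, Matrix.map_map] at h2
    have h3 : J.conjTranspose = J.transpose.map (starRingEnd ℂ) := rfl
    have h4 : J.map ((starRingEnd ℂ) ∘ (starRingEnd ℂ)) = J := by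
      ext i j
      simp
    rw [h4] at h2
    rw [h3, h2]
    ext i j
    simp [Matrix.one_apply]
  have key : ∀ u : Cm d, ((‖(WithLp.toLp 2 u : EuclideanSpace ℂ (Fin d))‖ ^ 2 : ℝ) : ℂ) =
      dotProduct (star u) u := by
    intro u
    rw [EuclideanSpace.norm_sq_eq]
    push_cast
    refine Finset.sum_congr rfl fun i _ => ?_
    show ((‖u i‖ : ℝ) : ℂ) ^ 2 = (starRingEnd ℂ) (u i) * u i
    rw [Complex.conj_mul']
  have h5 : ((‖(WithLp.toLp 2 (J.mulVec v) : EuclideanSpace ℂ (Fin d))‖ ^ 2 : ℝ) : ℂ) =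
      ((‖(WithLp.toLp 2 v : EuclideanSpace ℂ (Fin d))‖ ^ 2 : ℝ) : ℂ) := by
    rw [key, key, Matrix.star_mulVec, ← Matrix.dotProduct_mulVec, Matrix.mulVec_mulVec, h1,
      Matrix.one_mulVec]
  have h6 : ‖(WithLp.toLp 2 (J.mulVec v) : EuclideanSpace ℂ (Fin d))‖ ^ 2 =
      ‖(WithLp.toLp 2 v : EuclideanSpace ℂ (Fin d))‖ ^ 2 := by exact_mod_cast h5
  exact (sq_eq_sq₀ (norm_nonneg _) (norm_nonneg _)).1 h6

theorem euclid_lip {τ : Cm d → Cm d} (hτ : Differentiable ℂ τ)
    (hu : ∀ z, (jmat τ z).transpose * (jmat τ z).map (starRingEnd ℂ) = 1)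
    (x y : EuclideanSpace ℂ (Fin d)) :
    ‖(WithLp.toLp 2 (τ x.ofLp) : EuclideanSpace ℂ (Fin d)) - WithLp.toLp 2 (τ y.ofLp)‖ ≤
      ‖x - y‖ := by
  let L : EuclideanSpace ℂ (Fin d) ≃L[ℂ] Cm d := EuclideanSpace.equiv (Fin d) ℂ
  have hd : ∀ x ∈ (Set.univ : Set (EuclideanSpace ℂ (Fin d))),
      HasFDerivWithinAt (fun x => L.symm (τ (L x)))
        ((L.symm : Cm d →L[ℂ] EuclideanSpace ℂ (Fin d)).comp
          ((fderiv ℂ τ (L x)).comp (L : EuclideanSpace ℂ (Fin d) →L[ℂ] Cm d))) Set.univ x := by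
    intro x _
    refine HasFDerivAt.hasFDerivWithinAt ?_
    exact (L.symm.hasFDerivAt).comp x (((hτ (L x)).hasFDerivAt).comp x L.hasFDerivAt)
  have hb : ∀ x ∈ (Set.univ : Set (EuclideanSpace ℂ (Fin d))),
      ‖((L.symm : Cm d →L[ℂ] EuclideanSpace ℂ (Fin d)).comp
          ((fderiv ℂ τ (L x)).comp (L : EuclideanSpace ℂ (Fin d) →L[ℂ] Cm d)))‖ ≤ 1 := by
    intro x _
    refine ContinuousLinearMap.opNorm_le_bound _ zero_le_one fun v => ?_
    rw [one_mul]
    have h1 : fderiv ℂ τ (L x) (L v) = (jmat τ (L x)).mulVec (L v) := by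
      funext p
      rw [jmat_mulVec (hτ (L x))]
      rfl
    show ‖L.symm (fderiv ℂ τ (L x) (L v))‖ ≤ ‖v‖
    rw [h1]
    exact (norm_toLp_mulVec (hu (L x)) (L v)).le
  have := convex_univ.norm_image_sub_le_of_norm_hasFDerivWithin_le hd hb (Set.mem_univ y)
    (Set.mem_univ x)
  rw [one_mul] at this
  exact this

/-- A bijection of `ℂ^d` which is differentiable with unitary Jacobians, together with its inverse,
is an isometry of the Euclidean space. -/
def euclidIso (τ : Cm d ≃ Cm d) (hτ : Differentiable ℂ τ) (hτ' : Differentiable ℂ τ.symm)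
    (hu : ∀ z, (jmat τ z).transpose * (jmat τ z).map (starRingEnd ℂ) = 1)
    (hu' : ∀ z, (jmat τ.symm z).transpose * (jmat τ.symm z).map (starRingEnd ℂ) = 1) :
    EuclideanSpace ℂ (Fin d) ≃ᵢ EuclideanSpace ℂ (Fin d) where
  toFun x := WithLp.toLp 2 (τ x.ofLp)
  invFun x := WithLp.toLp 2 (τ.symm x.ofLp)
  left_inv x := by simp
  right_inv x := by simp
  isometry_toFun := by
    refine Isometry.of_dist_eq fun x y => ?_
    rw [dist_eq_norm, dist_eq_norm]
    refine le_antisymm (euclid_lip hτ hu x y) ?_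
    have h := euclid_lip hτ' hu' (WithLp.toLp 2 (τ x.ofLp)) (WithLp.toLp 2 (τ y.ofLp))
    simpa using h

end Euclid

section Top

variable {M X : Type*} [TopologicalSpace M] [TopologicalSpace X] {π : M → X}

/-- The deck transformations moving a point into a compact set are finite in number. -/
theorem deck_finite [PreconnectedSpace M] [T1Space X] (hπ : IsCoveringMap π) (m : M) {K : Set M}
    (hK : IsCompact K) : {g : Deck π | (g : M ≃ₜ M) m ∈ K}.Finite := by
  have hcl : IsClosed (π ⁻¹' {π m}) := isClosed_singleton.preimage hπ.continuous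
  have hdis : DiscreteTopology (π ⁻¹' {π m}) := (hπ (π m)).discreteTopology_fiber
  have hfin : (K ∩ π ⁻¹' {π m}).Finite := by
    refine (hK.inter_right hcl).finite ?_
    exact (isDiscrete_iff_discreteTopology.2 hdis).mono Set.inter_subset_right
  refine Set.Finite.of_finite_image (f := fun g : Deck π => (g : M ≃ₜ M) m) (hfin.subset ?_) ?_
  · rintro _ ⟨g, hg, rfl⟩
    exact ⟨hg, g.2 m⟩
  · intro g _ g' _ h
    refine Subtype.ext (Homeomorph.ext fun x => ?_)
    refine congrFun (hπ.eq_of_comp_eq (g : M ≃ₜ M).continuous (g' : M ≃ₜ M).continuous ?_ m h) x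
    funext x
    exact (g.2 x).trans (g'.2 x).symm

/-- A compact set of `M` mapping onto `X`. -/
theorem exists_compact_onto [LocallyCompactSpace M] [CompactSpace X] (hπ : IsOpenMap π)
    (hs : Function.Surjective π) : ∃ K : Set M, IsCompact K ∧ π '' K = Set.univ := by
  have h1 : ∀ m : M, ∃ K : Set M, IsCompact K ∧ m ∈ interior K := fun m =>
    exists_compact_mem_nhds m |>.imp fun K hK => ⟨hK.1, mem_interior_iff_mem_nhds.2 hK.2⟩
  choose K hK hm using h1
  obtain ⟨t, ht⟩ := isCompact_univ.elim_finite_subcover (fun m => π '' interior (K m))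
    (fun m => hπ _ isOpen_interior) (fun x _ => by
      obtain ⟨m, rfl⟩ := hs x
      exact Set.mem_iUnion.2 ⟨m, m, hm m, rfl⟩)
  refine ⟨⋃ m ∈ t, K m, t.isCompact_biUnion fun m _ => hK m, Set.eq_univ_of_univ_subset ?_⟩
  intro x hx
  have := ht hx
  simp only [Set.mem_iUnion] at this
  obtain ⟨m, hmt, y, hy, rfl⟩ := this
  exact ⟨y, Set.mem_biUnion hmt (interior_subset hy), rfl⟩

end Top

/-- **D3, glued**. -/
theorem d3Statement : D3Statement := by
  intro n X _ _ _ _ _ _ w hw _ S hY1 hY2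
  -- the action on `ℂ^d`
  let τ : Deck S.π → (Cm (S.d 0) ≃ Cm (S.d 0)) := fun g =>
    (S.dev.toEquiv.symm.trans (S.ρ 0 g)).trans S.dev.toEquiv
  have hτ1 : τ 1 = Equiv.refl _ := by
    refine Equiv.ext fun z => ?_
    show S.dev (S.ρ 0 1 (S.dev.symm z)) = z
    rw [map_one]
    exact S.dev.apply_symm_apply z
  have hτm : ∀ g h z, τ (g * h) z = τ g (τ h z) := by
    intro g h z
    show S.dev (S.ρ 0 (g * h) (S.dev.symm z)) =
      S.dev (S.ρ 0 g (S.dev.symm (S.dev (S.ρ 0 h (S.dev.symm z)))))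
    rw [map_mul, S.dev.symm_apply_apply]
    rfl
  have hτi : ∀ g, (τ g).symm = τ g⁻¹ := by
    intro g
    refine Equiv.ext fun z => ?_
    rw [Equiv.symm_apply_eq, ← hτm, mul_inv_cancel, hτ1]
    rfl
  have hτd : ∀ g, Differentiable ℂ (τ g) := by
    intro g
    have h1 : ContMDiff 𝓘(ℂ, Cm (S.d 0)) 𝓘(ℂ, Cm (S.d 0)) ω (τ g) :=
      (S.dev_hol.comp (S.ρ_hol 0 g)).comp S.dev_symm_hol
    rw [contMDiff_iff_contDiff] at h1
    exact h1.differentiable (by simp)
  have hτu : ∀ g z, (jmat (τ g) z).transpose * (jmat (τ g) z).map (starRingEnd ℂ) = 1 :=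
    fun g z => jmat_unitary (S.kahY 0).toIsHermitian S.dev S.dev_hol S.dev_symm_hol S.dev_iso
      (S.ρ_hol 0 g) (S.ρ_iso 0 g) z
  let I : Deck S.π → (EuclideanSpace ℂ (Fin (S.d 0)) ≃ᵢ EuclideanSpace ℂ (Fin (S.d 0))) :=
    fun g => euclidIso (τ g) (hτd g) (by rw [hτi]; exact hτd _) (hτu g)
      (by rw [hτi]; exact hτu _)
  have hI : ∀ g x, I g x = WithLp.toLp 2 (τ g x.ofLp) := fun _ _ => rfl
  let ρ : Deck S.π →* (EuclideanSpace ℂ (Fin (S.d 0)) ≃ᵃⁱ[ℝ] EuclideanSpace ℂ (Fin (S.d 0))) :=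
    { toFun := fun g => (I g).toRealAffineIsometryEquiv
      map_one' := by
        refine AffineIsometryEquiv.ext fun x => ?_
        show I 1 x = x
        rw [hI, hτ1]
        rfl
      map_mul' := fun g h => by
        refine AffineIsometryEquiv.ext fun x => ?_
        show I (g * h) x = I g (I h x)
        rw [hI, hI, hI, hτm] }
  have hρ : ∀ g x, ρ g x = WithLp.toLp 2 (τ g x.ofLp) := fun _ _ => rfl
  -- a base point
  have hne : ∀ i, Nonempty (S.Y i) := fun i => inferInstance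
  let a : (i : Fin 3) → S.Y i := fun i => (hne i).some
  let pt : Cm (S.d 0) → S.M := fun z => S.Φ.symm (Function.update a 0 (S.dev.symm z))
  have hpt : ∀ z, S.dev (S.Φ (pt z) 0) = z := by
    intro z
    show S.dev (S.Φ (S.Φ.symm _) 0) = z
    rw [S.Φ.apply_symm_apply, Function.update_self, S.dev.apply_symm_apply]
  have hdev : ∀ (g : Deck S.π) m, S.dev (S.Φ ((g : S.M ≃ₜ S.M) m) 0) = τ g (S.dev (S.Φ m 0)) := by
    intro g m
    rw [S.equiv]
    show _ = S.dev (S.ρ 0 g (S.dev.symm (S.dev (S.Φ m 0))))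
    rw [S.dev.symm_apply_apply]
  have hfin : ∀ R : ℝ, {g | ‖ρ g 0‖ ≤ R}.Finite := by
    intro R
    let K0 : Set (S.Y 0) := (fun y => (WithLp.toLp 2 (S.dev y) : EuclideanSpace ℂ (Fin (S.d 0)))) ⁻¹'
      Metric.closedBall 0 R
    let h0 : S.Y 0 ≃ₜ EuclideanSpace ℂ (Fin (S.d 0)) :=
      S.dev.trans (EuclideanSpace.equiv (Fin (S.d 0)) ℂ).symm.toHomeomorph
    have hK0 : IsCompact K0 := by
      have : K0 = h0 ⁻¹' Metric.closedBall 0 R := rfl
      rw [this]
      exact h0.isClosedEmbedding.isCompact_preimage (isCompact_closedBall 0 R)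
    let s : (i : Fin 3) → Set (S.Y i) := Fin.cons (α := fun i => Set (S.Y i)) K0
      (fun _ => Set.univ)
    have hs : ∀ i, IsCompact (s i) := by
      rw [Fin.forall_fin_succ]
      refine ⟨hK0, ?_⟩
      rw [Fin.forall_fin_two]
      exact ⟨isCompact_univ (X := S.Y 1), isCompact_univ (X := S.Y 2)⟩
    have hK : IsCompact (S.Φ ⁻¹' Set.pi Set.univ s) :=
      S.Φ.isClosedEmbedding.isCompact_preimage (isCompact_univ_pi hs)
    refine (deck_finite S.cov (pt 0) hK).subset fun g hg => ?_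
    have hg' : ‖ρ g 0‖ ≤ R := hg
    show S.Φ ((g : S.M ≃ₜ S.M) (pt 0)) ∈ Set.pi Set.univ s
    rw [Set.mem_univ_pi, Fin.forall_fin_succ]
    refine ⟨?_, fun _ => Set.mem_univ _⟩
    show WithLp.toLp 2 (S.dev (S.Φ ((g : S.M ≃ₜ S.M) (pt 0)) 0)) ∈ Metric.closedBall _ R
    rw [hdev, hpt, mem_closedBall_zero_iff]
    exact hg'
  have hco : ∃ R : ℝ, ∀ x : EuclideanSpace ℂ (Fin (S.d 0)), ∃ g, ‖ρ g 0 - x‖ ≤ R := by
    have : LocallyCompactSpace S.M := ChartedSpace.locallyCompactSpace (Cm n) S.M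
    obtain ⟨K, hK, hKX⟩ := exists_compact_onto S.cov.isOpenMap S.surj
    have hc : Continuous fun m : S.M =>
        ‖(WithLp.toLp 2 (S.dev (S.Φ m 0)) : EuclideanSpace ℂ (Fin (S.d 0)))‖ := by
      have h1 : Continuous fun m : S.M => S.dev (S.Φ m 0) :=
        S.dev.continuous.comp ((continuous_apply 0).comp S.Φ.continuous)
      exact (((EuclideanSpace.equiv (Fin (S.d 0)) ℂ).symm.continuous).comp h1).norm
    obtain ⟨R, hR⟩ := (hK.image hc).bddAbove
    refine ⟨R, fun x => ?_⟩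
    have h1 : S.π (pt x.ofLp) ∈ S.π '' K := by rw [hKX]; exact Set.mem_univ _
    obtain ⟨c, hcK, hcπ⟩ := h1
    obtain ⟨g, hg⟩ := (S.gal c (pt x.ofLp)).1 hcπ
    refine ⟨g, ?_⟩
    have h2 : x = ρ g (WithLp.toLp 2 (S.dev (S.Φ c 0))) := by
      rw [hρ]
      show x = WithLp.toLp 2 (τ g (S.dev (S.Φ c 0)))
      rw [← hdev, hg, hpt]
    have h3 : ‖ρ g 0 - x‖ = ‖(WithLp.toLp 2 (S.dev (S.Φ c 0)) : EuclideanSpace ℂ (Fin (S.d 0)))‖ := by
      rw [← dist_eq_norm]
      conv_lhs => rw [h2]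
      rw [(ρ g).dist_map, dist_zero_left]
    rw [h3]
    exact hR ⟨c, hcK, rfl⟩
  obtain ⟨G, hG1, hG2, hG3, hG4⟩ := exists_translation_subgroup ρ hfin hco
  refine ⟨G, hG1, hG2, hG3, fun g hg => ?_⟩
  obtain ⟨v, hv⟩ := hG4 g hg
  refine ⟨v.ofLp, fun y => ?_⟩
  have h1 := hv (WithLp.toLp 2 (S.dev y))
  rw [hρ] at h1
  have h2 := congrArg WithLp.ofLp h1
  have h3 : S.dev (S.ρ 0 g y) = τ g (S.dev y) := by
    show _ = S.dev (S.ρ 0 g (S.dev.symm (S.dev y)))
    rw [S.dev.symm_apply_apply]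
  rw [h3]
  exact h2

end Vale.Agent.P299.H227
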