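import Vale.Agent.P299.H956.D1.PullE

/-!
# P299, D1-FLD: lifting fields and endomorphisms from the factors of a product

`F i : M → Y i` are the projections of a product decomposition of `M` (only: holomorphic, the
joint Jacobian is injective and the dimensions add up); `wM` is the product metric.  Holomorphic
(parallel) vector fields and self-adjoint endomorphism fields of `Y i` are lifted to `M`.
-/

open scoped Manifold ContDiff ComplexOrder Topology
open Complex Vale.Agent.P272.K Vale.Agent.P299.D Vale.Agent.P299.H956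

set_option linter.all false

noncomputable section

namespace Vale.Agent.P299.H227.Fld

section alg
variable {n k : ℕ} {ι : Type} [Fintype ι] [DecidableEq ι] {d : ι → ℕ}

/-- a bijection between `Fin n` and the disjoint union of the blocks -/
def sig (h : ∑ i, d i = n) : Fin n ≃ Σ i, Fin (d i) :=
  (Fintype.equivFinOfCardEq (by simp [h])).symm

/-- stacking of blocks -/
def stk (σ : Fin n ≃ Σ i, Fin (d i)) (W : ∀ i, Matrix (Fin (d i)) (Fin k) ℂ) :
    Matrix (Fin n) (Fin k) ℂ := Matrix.of fun a b => W (σ a).1 (σ a).2 b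

/-- stacking of vectors -/
def stv (σ : Fin n ≃ Σ i, Fin (d i)) (W : ∀ i, Cm (d i)) : Cm n := fun a => W (σ a).1 (σ a).2

lemma stk_mul (σ : Fin n ≃ Σ i, Fin (d i)) {l : ℕ} (W : ∀ i, Matrix (Fin (d i)) (Fin k) ℂ)
    (B : Matrix (Fin k) (Fin l) ℂ) : stk σ W * B = stk σ (fun i => W i * B) := by
  ext a b
  simp [stk, Matrix.mul_apply]

lemma stk_mulVec (σ : Fin n ≃ Σ i, Fin (d i)) (W : ∀ i, Matrix (Fin (d i)) (Fin k) ℂ)
    (u : Cm k) : (stk σ W).mulVec u = stv σ (fun i => (W i).mulVec u) := by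
  ext a
  simp [stk, stv, Matrix.mulVec, dotProduct]

lemma stk_inj (σ : Fin n ≃ Σ i, Fin (d i)) {W W' : ∀ i, Matrix (Fin (d i)) (Fin k) ℂ}
    (h : stk σ W = stk σ W') (i : ι) : W i = W' i := by
  ext a b
  have key : ∀ s : Σ i, Fin (d i), W s.1 s.2 b = W' s.1 s.2 b := fun s => by
    obtain ⟨a', rfl⟩ := σ.surjective s
    exact congrFun (congrFun h a') b
  exact key ⟨i, a⟩

lemma stv_inj (σ : Fin n ≃ Σ i, Fin (d i)) {W W' : ∀ i, Cm (d i)}
    (h : stv σ W = stv σ W') (i : ι) : W i = W' i := by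
  ext a
  have key : ∀ s : Σ i, Fin (d i), W s.1 s.2 = W' s.1 s.2 := fun s => by
    obtain ⟨a', rfl⟩ := σ.surjective s
    exact congrFun h a'
  exact key ⟨i, a⟩

lemma stk_det {σ : Fin n ≃ Σ i, Fin (d i)} {J : ∀ i, Matrix (Fin (d i)) (Fin n) ℂ}
    (hJ : ∀ u : Cm n, (∀ i, (J i).mulVec u = 0) → u = 0) : IsUnit (stk σ J).det := by
  refine isUnit_iff_ne_zero.2 (det_inj fun u hu => hJ u fun i => ?_)
  rw [stk_mulVec] at hu
  have : stv σ (fun i => (J i).mulVec u) = stv σ (fun i => (0 : Cm (d i))) := by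
    rw [hu]; rfl
  exact stv_inj σ this i

/-- solving `J i * V = W i` -/
lemma stk_solve {σ : Fin n ≃ Σ i, Fin (d i)} {J : ∀ i, Matrix (Fin (d i)) (Fin n) ℂ}
    (hJ : IsUnit (stk σ J).det) (W : ∀ i, Matrix (Fin (d i)) (Fin k) ℂ) (i : ι) :
    J i * ((stk σ J)⁻¹ * stk σ W) = W i := by
  refine stk_inj (W := fun i => J i * ((stk σ J)⁻¹ * stk σ W)) σ ?_ i
  rw [← stk_mul, ← Matrix.mul_assoc, Matrix.mul_nonsing_inv _ hJ, Matrix.one_mul]

lemma stk_solveV {σ : Fin n ≃ Σ i, Fin (d i)} {J : ∀ i, Matrix (Fin (d i)) (Fin n) ℂ}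
    (hJ : IsUnit (stk σ J).det) (W : ∀ i, Cm (d i)) (i : ι) :
    (J i).mulVec (((stk σ J)⁻¹).mulVec (stv σ W)) = W i := by
  refine stv_inj (W := fun i => (J i).mulVec (((stk σ J)⁻¹).mulVec (stv σ W))) σ ?_ i
  rw [← stk_mulVec, Matrix.mulVec_mulVec, Matrix.mul_nonsing_inv _ hJ, Matrix.one_mulVec]

/-- uniqueness -/
lemma blk_ext {J : ∀ i, Matrix (Fin (d i)) (Fin n) ℂ}
    (hJ : ∀ u : Cm n, (∀ i, (J i).mulVec u = 0) → u = 0) {V V' : Matrix (Fin n) (Fin k) ℂ}
    (h : ∀ i, J i * V = J i * V') : V = V' := by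
  ext a b
  have h1 : (fun a => V a b - V' a b : Cm n) = 0 := by
    refine hJ _ fun i => ?_
    ext c
    have := congrFun (congrFun (h i) c) b
    simp only [Matrix.mul_apply] at this
    simp only [Matrix.mulVec, dotProduct, mul_sub, Finset.sum_sub_distrib, this, sub_self,
      Pi.zero_apply]
  have := congrFun h1 a
  exact sub_eq_zero.1 this

lemma blk_extV {J : ∀ i, Matrix (Fin (d i)) (Fin n) ℂ}
    (hJ : ∀ u : Cm n, (∀ i, (J i).mulVec u = 0) → u = 0) {V V' : Cm n}
    (h : ∀ i, (J i).mulVec V = (J i).mulVec V') : V = V' := by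
  refine sub_eq_zero.1 (hJ _ fun i => ?_)
  rw [Matrix.mulVec_sub, h i, sub_self]

end alg

section lift
variable {n : ℕ} {M : Type*} [TopologicalSpace M] [ChartedSpace (Cm n) M]
  [IsManifold 𝓘(ℂ, Cm n) ω M] {ι : Type} [Fintype ι] [DecidableEq ι] {d : ι → ℕ} {Y : ι → Type*}
  [∀ i, TopologicalSpace (Y i)] [∀ i, ChartedSpace (Cm (d i)) (Y i)]
  [∀ i, IsManifold 𝓘(ℂ, Cm (d i)) ω (Y i)]

/-- The projections `F i : M → Y i` of a product decomposition, infinitesimally. -/
structure Dec (F : ∀ i, M → Y i) : Prop where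
  dsum : ∑ i, d i = n
  hol : ∀ i, ContMDiff 𝓘(ℂ, Cm n) 𝓘(ℂ, Cm (d i)) ω (F i)
  inj : ∀ (e : Chart n M) (m : M) (e' : (i : ι) → Chart (d i) (Y i)), At e m →
    (∀ i, At (e' i) (F i m)) → ∀ u : Cm n, (∀ i, (jacF (F i) e (e' i) m).mulVec u = 0) → u = 0

variable {F : ∀ i, M → Y i}

/-- the joint Jacobian -/
def sJ (h : ∑ i, d i = n) (F : ∀ i, M → Y i) (e : Chart n M) (e' : (i : ι) → Chart (d i) (Y i))
    (m : M) : Matrix (Fin n) (Fin n) ℂ := stk (sig h) (fun i => jacF (F i) e (e' i) m)

/-- the lift of a vector field of `Y i` -/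
def liftV (h : ∑ i, d i = n) (F : ∀ i, M → Y i) (i : ι) (v : VField (d i) (Y i)) : VField n M :=
  fun e z => ((sJ h F e (fun j => chartAt (Cm (d j)) (F j (e.symm z))) (e.symm z))⁻¹).mulVec
    (stv (sig h) (Pi.single i (v (chartAt (Cm (d i)) (F i (e.symm z)))
      (chartAt (Cm (d i)) (F i (e.symm z)) (F i (e.symm z))))))

/-- the lift of an endomorphism field of `Y i` -/
def liftE (h : ∑ i, d i = n) (F : ∀ i, M → Y i) (i : ι) (B : FormM (d i) (Y i)) : FormM n M :=
  fun e z => (sJ h F e (fun j => chartAt (Cm (d j)) (F j (e.symm z))) (e.symm z))⁻¹ *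
    stk (sig h) (Pi.single i (B (chartAt (Cm (d i)) (F i (e.symm z)))
      (chartAt (Cm (d i)) (F i (e.symm z)) (F i (e.symm z))) *
        jacF (F i) e (chartAt (Cm (d i)) (F i (e.symm z))) (e.symm z)))

lemma Dec.unit (hF : Dec F) {e : Chart n M} {m : M} {e' : (i : ι) → Chart (d i) (Y i)}
    (h : At e m) (h' : ∀ i, At (e' i) (F i m)) : IsUnit (sJ hF.dsum F e e' m).det :=
  stk_det (hF.inj e m e' h h')

lemma single_mul {i : ι} {k l : ℕ} (x : Matrix (Fin (d i)) (Fin k) ℂ) (B : Matrix (Fin k) (Fin l) ℂ)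
    (j : ι) : (Pi.single i x : ∀ j, Matrix (Fin (d j)) (Fin k) ℂ) j * B =
      (Pi.single i (x * B) : ∀ j, Matrix (Fin (d j)) (Fin l) ℂ) j := by
  by_cases hj : j = i
  · subst hj; simp
  · simp [Pi.single_eq_of_ne hj]

lemma Dec.liftV_rel (hF : Dec F) {i : ι} {v : VField (d i) (Y i)} (hv : IsHolVF v)
    {e : Chart n M} {m : M} (h : At e m) {e' : (j : ι) → Chart (d j) (Y j)}
    (h' : ∀ j, At (e' j) (F j m)) (j : ι) :
    (jacF (F j) e (e' j) m).mulVec (liftV hF.dsum F i v e (e m)) =
      (Pi.single i (v (e' i) (e' i (F i m))) : ∀ j, Cm (d j)) j := by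
  have hc : ∀ j, At (chartAt (Cm (d j)) (F j m)) (F j m) := fun j => at_chartAt _
  have hJ := hF.unit h hc
  have h1 := stk_solveV (σ := sig hF.dsum) hJ
    (Pi.single i (v (chartAt (Cm (d i)) (F i m)) (chartAt (Cm (d i)) (F i m) (F i m)))) j
  have h2 : (jacF (F j) e (chartAt (Cm (d j)) (F j m)) m).mulVec (liftV hF.dsum F i v e (e m)) =
      (Pi.single i (v (chartAt (Cm (d i)) (F i m)) (chartAt (Cm (d i)) (F i m) (F i m))) :
        ∀ j, Cm (d j)) j := by
    unfold liftV
    rw [h.left_inv]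
    exact h1
  rw [jacF_right (hF.hol j).contMDiffAt h (hc j) (h' j), ← Matrix.mulVec_mulVec, h2]
  by_cases hj : j = i
  · subst hj
    rw [Pi.single_eq_same, Pi.single_eq_same, hv.change _ _ _ (hc j) (h' j)]
  · rw [Pi.single_eq_of_ne hj, Pi.single_eq_of_ne hj, Matrix.mulVec_zero]

lemma Dec.liftE_rel (hF : Dec F) {i : ι} {B : FormM (d i) (Y i)} (hB : IsHolEnd B)
    {e : Chart n M} {m : M} (h : At e m) {e' : (j : ι) → Chart (d j) (Y j)}
    (h' : ∀ j, At (e' j) (F j m)) (j : ι) :
    jacF (F j) e (e' j) m * liftE hF.dsum F i B e (e m) =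
      (Pi.single i (B (e' i) (e' i (F i m)) * jacF (F i) e (e' i) m) :
        ∀ j, Matrix (Fin (d j)) (Fin n) ℂ) j := by
  have hc : ∀ j, At (chartAt (Cm (d j)) (F j m)) (F j m) := fun j => at_chartAt _
  have hJ := hF.unit h hc
  have h1 := stk_solve (σ := sig hF.dsum) hJ
    (Pi.single i (B (chartAt (Cm (d i)) (F i m)) (chartAt (Cm (d i)) (F i m) (F i m)) *
      jacF (F i) e (chartAt (Cm (d i)) (F i m)) m)) j
  have h2 : jacF (F j) e (chartAt (Cm (d j)) (F j m)) m * liftE hF.dsum F i B e (e m) =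
      (Pi.single i (B (chartAt (Cm (d i)) (F i m)) (chartAt (Cm (d i)) (F i m) (F i m)) *
        jacF (F i) e (chartAt (Cm (d i)) (F i m)) m) : ∀ j, Matrix (Fin (d j)) (Fin n) ℂ) j := by
    unfold liftE
    rw [h.left_inv]
    exact h1
  rw [jacF_right (hF.hol j).contMDiffAt h (hc j) (h' j), Matrix.mul_assoc, h2]
  by_cases hj : j = i
  · subst hj
    rw [Pi.single_eq_same, Pi.single_eq_same, ← Matrix.mul_assoc, hB.change _ _ _ (hc j) (h' j),
      Matrix.mul_assoc, ← jacF_right (hF.hol j).contMDiffAt h (hc j) (h' j)]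
  · rw [Pi.single_eq_of_ne hj, Pi.single_eq_of_ne hj, Matrix.mul_zero]

/-- near `e m` all `F j (e.symm z)` stay in the domains of fixed charts -/
lemma Dec.ev (hF : Dec (n := n) (d := d) F) {e : Chart n M} {m : M} (h : At e m) {e' : (j : ι) → Chart (d j) (Y j)}
    (h' : ∀ j, At (e' j) (F j m)) :
    ∀ᶠ z in 𝓝 (e m), z ∈ e.target ∧ At e (e.symm z) ∧ ∀ j, At (e' j) (F j (e.symm z)) := by
  have h1 : ∀ j, ∀ᶠ z in 𝓝 (e m), z ∈ e.target ∧ At e (e.symm z) ∧ At (e' j) (F j (e.symm z)) :=
    fun j => nhds_at_map (hF.hol j).continuous.continuousAt h (h' j)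
  have h2 := Filter.eventually_all.2 h1
  filter_upwards [h2, h.nhds_target] with z hz hz'
  exact ⟨hz', At.of_target h.1 hz', fun j => (hz j).2.2⟩

lemma Dec.sJ_analytic (hF : Dec (n := n) (d := d) F) {e : Chart n M} {m : M} (h : At e m)
    {e' : (j : ι) → Chart (d j) (Y j)} (h' : ∀ j, At (e' j) (F j m)) (a b : Fin n) :
    AnalyticAt ℂ (fun z => (stk (sig hF.dsum)
      (fun j => jmR (fun z => e' j (F j (e.symm z))) z) : Matrix (Fin n) (Fin n) ℂ) a b) (e m) :=
  (jmR_holo (rep_hol (hF.hol _).contMDiffAt h (h' _)) _ _).analyticAt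

lemma Dec.ext (hF : Dec (n := n) (d := d) F) {e : Chart n M} {m : M} (h : At e m) {k : ℕ}
    {V V' : Matrix (Fin n) (Fin k) ℂ}
    (hV : ∀ j, jacF (F j) e (chartAt (Cm (d j)) (F j m)) m * V =
      jacF (F j) e (chartAt (Cm (d j)) (F j m)) m * V') : V = V' :=
  blk_ext (hF.inj e m _ h fun j => at_chartAt _) hV

lemma Dec.extV (hF : Dec (n := n) (d := d) F) {e : Chart n M} {m : M} (h : At e m)
    {V V' : Cm n} (hV : ∀ j, (jacF (F j) e (chartAt (Cm (d j)) (F j m)) m).mulVec V =
      (jacF (F j) e (chartAt (Cm (d j)) (F j m)) m).mulVec V') : V = V' :=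
  blk_extV (hF.inj e m _ h fun j => at_chartAt _) hV

lemma Dec.liftV_eq (hF : Dec (n := n) (d := d) F) {i : ι} {v : VField (d i) (Y i)} (hv : IsHolVF v)
    {e : Chart n M} {m : M} (h : At e m) {e' : (j : ι) → Chart (d j) (Y j)}
    (h' : ∀ j, At (e' j) (F j m)) :
    liftV hF.dsum F i v e (e m) = ((sJ hF.dsum F e e' m)⁻¹).mulVec
      (stv (sig hF.dsum) (Pi.single i (v (e' i) (e' i (F i m))))) := by
  refine blk_extV (hF.inj e m e' h h') fun j => ?_
  rw [hF.liftV_rel hv h h', sJ, stk_solveV (hF.unit h h')]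

lemma Dec.liftE_eq (hF : Dec (n := n) (d := d) F) {i : ι} {B : FormM (d i) (Y i)}
    (hB : IsHolEnd B) {e : Chart n M} {m : M} (h : At e m) {e' : (j : ι) → Chart (d j) (Y j)}
    (h' : ∀ j, At (e' j) (F j m)) :
    liftE hF.dsum F i B e (e m) = (sJ hF.dsum F e e' m)⁻¹ *
      stk (sig hF.dsum) (Pi.single i (B (e' i) (e' i (F i m)) * jacF (F i) e (e' i) m)) := by
  refine blk_ext (hF.inj e m e' h h') fun j => ?_
  rw [hF.liftE_rel hB h h', sJ, stk_solve (hF.unit h h')]

lemma Dec.liftV_hol (hF : Dec (n := n) (d := d) F) {i : ι} {v : VField (d i) (Y i)}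
    (hv : IsHolVF v) : IsHolVF (liftV hF.dsum F i v) where
  holo e m h := by
    have hc : ∀ j, At (chartAt (Cm (d j)) (F j m)) (F j m) := fun j => at_chartAt _
    set c : (j : ι) → Chart (d j) (Y j) := fun j => chartAt (Cm (d j)) (F j m) with hcdef
    have h1 : AnalyticAt ℂ (fun z => ((stk (sig hF.dsum)
        (fun j => jmR (fun z => c j (F j (e.symm z))) z) : Matrix (Fin n) (Fin n) ℂ)⁻¹).mulVec
        (stv (sig hF.dsum) (Pi.single i (v (c i) (c i (F i (e.symm z))))))) (e m) := by
      refine analytic_mulVec (fun a b => analytic_inv (fun a b => hF.sJ_analytic h hc a b)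
        (hF.unit h hc).ne_zero a b) ?_
      rw [analyticAt_pi_iff]
      intro a
      unfold stv
      by_cases ha : (sig hF.dsum a).1 = i
      · have h2 : AnalyticAt ℂ (fun z => v (c i) (c i (F i (e.symm z)))) (e m) := by
          have h3 : AnalyticAt ℂ (v (c i)) (c i (F i (e.symm (e m)))) := by
            rw [h.left_inv]; exact hv.holo _ _ (hc i)
          exact AnalyticAt.comp (g := v (c i)) h3
            (rep_hol (hF.hol i).contMDiffAt h (hc i)).analyticAt
        subst ha
        have h4 : (fun z => (Pi.single (sig hF.dsum a).1 (v (c (sig hF.dsum a).1)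
            (c (sig hF.dsum a).1 (F (sig hF.dsum a).1 (e.symm z)))) : ∀ j, Cm (d j))
              (sig hF.dsum a).1 (sig hF.dsum a).2) = fun z => (v (c (sig hF.dsum a).1)
            (c (sig hF.dsum a).1 (F (sig hF.dsum a).1 (e.symm z)))) (sig hF.dsum a).2 := by
          funext z
          rw [Pi.single_eq_same]
        rw [h4]
        exact analyticAt_pi_iff.1 h2 _
      · have h4 : (fun z => (Pi.single i (v (c i) (c i (F i (e.symm z)))) : ∀ j, Cm (d j))
              (sig hF.dsum a).1 (sig hF.dsum a).2) = fun z => 0 := by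
          funext z
          rw [Pi.single_eq_of_ne ha]; rfl
        rw [h4]
        exact analyticAt_const
    refine h1.congr ?_
    filter_upwards [hF.ev h hc] with z hz
    have h2 := hF.liftV_eq hv hz.2.1 hz.2.2
    rw [e.right_inv hz.1] at h2
    rw [h2]
    have h3 : sJ hF.dsum F e c (e.symm z) = (stk (sig hF.dsum)
        (fun j => jmR (fun z => c j (F j (e.symm z))) z) : Matrix (Fin n) (Fin n) ℂ) := by
      unfold sJ
      congr 1
      funext j
      rw [jacF_eq, e.right_inv hz.1]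
    rw [h3]
  change e e' m h h' := by
    refine hF.extV h' fun j => ?_
    have hc : ∀ j, At (chartAt (Cm (d j)) (F j m)) (F j m) := fun j => at_chartAt _
    rw [hF.liftV_rel hv h' hc, Matrix.mulVec_mulVec, ← jacF_left (hF.hol j).contMDiffAt h h' (hc j),
      hF.liftV_rel hv h hc]

lemma Dec.liftE_hol (hF : Dec (n := n) (d := d) F) {i : ι} {B : FormM (d i) (Y i)}
    (hB : IsHolEnd B) : IsHolEnd (liftE hF.dsum F i B) where
  holo e m h a b := by
    have hc : ∀ j, At (chartAt (Cm (d j)) (F j m)) (F j m) := fun j => at_chartAt _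
    set c : (j : ι) → Chart (d j) (Y j) := fun j => chartAt (Cm (d j)) (F j m) with hcdef
    have h1 : AnalyticAt ℂ (fun z => ((stk (sig hF.dsum)
        (fun j => jmR (fun z => c j (F j (e.symm z))) z) : Matrix (Fin n) (Fin n) ℂ)⁻¹ *
        (stk (sig hF.dsum) (Pi.single i (B (c i) (c i (F i (e.symm z))) *
          jmR (fun z => c i (F i (e.symm z))) z)))) a b) (e m) := by
      refine analytic_mul_entry (fun a b => analytic_inv (fun a b => hF.sJ_analytic h hc a b)
        (hF.unit h hc).ne_zero a b) ?_ a b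
      intro a b
      by_cases ha : (sig hF.dsum a).1 = i
      · have h2 : ∀ p q, AnalyticAt ℂ (fun z => (B (c i) (c i (F i (e.symm z))) *
            jmR (fun z => c i (F i (e.symm z))) z) p q) (e m) := by
          intro p q
          simp only [Matrix.mul_apply]
          refine Finset.analyticAt_fun_sum _ fun k _ => AnalyticAt.mul ?_ ?_
          · have h3 : AnalyticAt ℂ (fun y => B (c i) y p k) (c i (F i (e.symm (e m)))) := by
              rw [h.left_inv]; exact hB.holo _ _ (hc i) p k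
            exact AnalyticAt.comp (g := fun y => B (c i) y p k) h3
              (rep_hol (hF.hol i).contMDiffAt h (hc i)).analyticAt
          · exact (jmR_holo (rep_hol (hF.hol _).contMDiffAt h (hc i)) _ _).analyticAt
        subst ha
        have h4 : (fun z => (stk (sig hF.dsum) (Pi.single (sig hF.dsum a).1
            (B (c (sig hF.dsum a).1)
            (c (sig hF.dsum a).1 (F (sig hF.dsum a).1 (e.symm z))) *
              jmR (fun z => c (sig hF.dsum a).1 (F (sig hF.dsum a).1 (e.symm z))) z)) :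
              Matrix (Fin n) (Fin n) ℂ) a b) = fun z => (B (c (sig hF.dsum a).1)
            (c (sig hF.dsum a).1 (F (sig hF.dsum a).1 (e.symm z))) *
              jmR (fun z => c (sig hF.dsum a).1 (F (sig hF.dsum a).1 (e.symm z))) z)
                (sig hF.dsum a).2 b := by
          funext z
          unfold stk
          rw [Matrix.of_apply, Pi.single_eq_same]
        rw [h4]
        exact h2 _ _
      · have h4 : (fun z => (stk (sig hF.dsum) (Pi.single i (B (c i) (c i (F i (e.symm z))) *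
            jmR (fun z => c i (F i (e.symm z))) z)) : Matrix (Fin n) (Fin n) ℂ) a b) =
            fun z => 0 := by
          funext z
          unfold stk
          rw [Matrix.of_apply, Pi.single_eq_of_ne ha]; rfl
        rw [h4]
        exact analyticAt_const
    refine h1.congr ?_
    filter_upwards [hF.ev h hc] with z hz
    have h2 := hF.liftE_eq hB hz.2.1 hz.2.2
    rw [e.right_inv hz.1] at h2
    rw [h2]
    have h3 : sJ hF.dsum F e c (e.symm z) = (stk (sig hF.dsum)
        (fun j => jmR (fun z => c j (F j (e.symm z))) z) : Matrix (Fin n) (Fin n) ℂ) := by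
      unfold sJ
      congr 1
      funext j
      rw [jacF_eq, e.right_inv hz.1]
    rw [h3, jacF_eq, e.right_inv hz.1]
  change e e' m h h' := by
    refine hF.ext h' fun j => ?_
    have hc : ∀ j, At (chartAt (Cm (d j)) (F j m)) (F j m) := fun j => at_chartAt _
    rw [← Matrix.mul_assoc, ← Matrix.mul_assoc, ← jacF_left (hF.hol j).contMDiffAt h h' (hc j),
      hF.liftE_rel hB h hc, hF.liftE_rel hB h' hc, single_mul, Matrix.mul_assoc,
      ← jacF_left (hF.hol i).contMDiffAt h h' (hc i)]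

section metric
variable {wM : FormM n M} {wY : ∀ i, FormM (d i) (Y i)}

/-- `wM` is the product of the forms `wY i` -/
def IsProd (F : ∀ i, M → Y i) (wM : FormM n M) (wY : ∀ i, FormM (d i) (Y i)) : Prop :=
  ∀ (e : Chart n M) (m : M), At e m → wM e (e m) = ∑ i, pullM (F i) (wY i) e (e m)

lemma Dec.prod_eq (hF : Dec (n := n) (d := d) F) (hw : IsProd F wM wY) (hY : ∀ i, IsForm (wY i))
    {e : Chart n M} {m : M} (h : At e m) {e' : (j : ι) → Chart (d j) (Y j)}
    (h' : ∀ j, At (e' j) (F j m)) :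
    wM e (e m) = ∑ j, (jacF (F j) e (e' j) m).transpose * wY j (e' j) (e' j (F j m)) *
      (jacF (F j) e (e' j) m).map (starRingEnd ℂ) := by
  rw [hw e m h]
  exact Finset.sum_congr rfl fun j _ => pullM_eq (hY j) (hF.hol j).contMDiffAt h (h' j)

lemma lowerV_eq {N : Type*} [TopologicalSpace N] (w : FormM n N) (v : VField n N) (e : Chart n N)
    (z : Cm n) : lowerV w v e z = (w e z).mulVec (star (v e z)) := rfl

lemma map_mulVec_star {p q : ℕ} (J : Matrix (Fin p) (Fin q) ℂ) (v : Cm q) :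
    (J.map (starRingEnd ℂ)).mulVec (star v) = star (J.mulVec v) := by
  funext i
  simp [Matrix.mulVec, dotProduct, mul_comm]

lemma Dec.lower_lift (hF : Dec (n := n) (d := d) F) (hw : IsProd F wM wY)
    (hY : ∀ i, IsForm (wY i)) {i : ι} {v : VField (d i) (Y i)} (hv : IsHolVF v)
    {e : Chart n M} {m : M} (h : At e m) {e' : (j : ι) → Chart (d j) (Y j)}
    (h' : ∀ j, At (e' j) (F j m)) :
    lowerV wM (liftV hF.dsum F i v) e (e m) =
      (jacF (F i) e (e' i) m).transpose.mulVec (lowerV (wY i) v (e' i) (e' i (F i m))) := by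
  rw [lowerV_eq, hF.prod_eq hw hY h h', Matrix.sum_mulVec, Finset.sum_eq_single i]
  · rw [← Matrix.mulVec_mulVec, map_mulVec_star, hF.liftV_rel hv h h', Pi.single_eq_same,
      ← Matrix.mulVec_mulVec, lowerV_eq]
  · intro j _ hj
    rw [← Matrix.mulVec_mulVec, map_mulVec_star, hF.liftV_rel hv h h', Pi.single_eq_of_ne hj]
    simp
  · intro h; exact absurd (Finset.mem_univ i) h

/-- the lift of a parallel field is parallel -/
theorem Dec.liftV_par (hF : Dec (n := n) (d := d) F) (hw : IsProd F wM wY)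
    (hY : ∀ i, IsForm (wY i)) {i : ι} {v : VField (d i) (Y i)} (hv : IsParVF (wY i) v) :
    IsParVF wM (liftV hF.dsum F i v) where
  toIsHolVF := hF.liftV_hol hv.toIsHolVF
  holo' e m h := by
    have hc : ∀ j, At (chartAt (Cm (d j)) (F j m)) (F j m) := fun j => at_chartAt _
    set c : (j : ι) → Chart (d j) (Y j) := fun j => chartAt (Cm (d j)) (F j m) with hcdef
    have h1 : AnalyticAt ℂ (fun z => (jmR (fun z => c i (F i (e.symm z))) z).transpose.mulVec
        (lowerV (wY i) v (c i) (c i (F i (e.symm z))))) (e m) := by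
      refine analytic_mulVec (fun a b => ?_) ?_
      · exact (jmR_holo (rep_hol (hF.hol _).contMDiffAt h (hc i)) b a).analyticAt
      · have h3 : AnalyticAt ℂ (lowerV (wY i) v (c i)) (c i (F i (e.symm (e m)))) := by
          rw [h.left_inv]; exact hv.holo' _ _ (hc i)
        exact AnalyticAt.comp (g := lowerV (wY i) v (c i)) h3
          (rep_hol (hF.hol i).contMDiffAt h (hc i)).analyticAt
    refine h1.congr ?_
    filter_upwards [hF.ev h hc] with z hz
    have h2 := hF.lower_lift hw hY hv.toIsHolVF hz.2.1 hz.2.2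
    rw [e.right_inv hz.1] at h2
    rw [h2, jacF_eq, e.right_inv hz.1]

/-- the lift of a self-adjoint field is self-adjoint -/
theorem Dec.liftE_sa (hF : Dec (n := n) (d := d) F) (hw : IsProd F wM wY)
    (hY : ∀ i, IsForm (wY i)) {i : ι} {B : FormM (d i) (Y i)} (hB : IsHolEnd B)
    (hs : IsSelfAdj (wY i) B) : IsSelfAdj wM (liftE hF.dsum F i B) := by
  intro e m h
  have hc : ∀ j, At (chartAt (Cm (d j)) (F j m)) (F j m) := fun j => at_chartAt _
  rw [hF.prod_eq hw hY h hc, Matrix.mul_sum, Matrix.sum_mul]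
  refine Finset.sum_congr rfl fun j _ => ?_
  have h1 := hF.liftE_rel hB h hc j
  have h2 : (liftE hF.dsum F i B e (e m)).transpose *
      (jacF (F j) e (chartAt (Cm (d j)) (F j m)) m).transpose =
      ((Pi.single i (B (chartAt (Cm (d i)) (F i m)) (chartAt (Cm (d i)) (F i m) (F i m)) *
        jacF (F i) e (chartAt (Cm (d i)) (F i m)) m) :
        ∀ j, Matrix (Fin (d j)) (Fin n) ℂ) j).transpose := by
    rw [← Matrix.transpose_mul, h1]
  rw [← Matrix.mul_assoc, ← Matrix.mul_assoc, h2, Matrix.mul_assoc _ _ ((liftE hF.dsum F i B e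
    (e m)).map (starRingEnd ℂ)), ← mcj_rect_mul, h1]
  by_cases hj : j = i
  · subst hj
    rw [Pi.single_eq_same, mcj_rect_mul, Matrix.transpose_mul]
    have h3 := hs _ _ (hc j)
    simp only [Matrix.mul_assoc]
    rw [← Matrix.mul_assoc (B _ _).transpose, h3]
    simp only [Matrix.mul_assoc]
  · rw [Pi.single_eq_of_ne hj]
    simp

/-- the lift of a field killed by `Ric` is killed by `Ric` -/
theorem Dec.liftE_ric (hF : Dec (n := n) (d := d) F) (hric : IsProd F (ric wM) fun i => ric (wY i))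
    (hY : ∀ i, IsHermitian (wY i)) {i : ι} {B : FormM (d i) (Y i)} (hB : IsHolEnd B)
    (hs : RicKills (wY i) B) : RicKills wM (liftE hF.dsum F i B) := by
  intro e m h
  have hc : ∀ j, At (chartAt (Cm (d j)) (F j m)) (F j m) := fun j => at_chartAt _
  rw [hF.prod_eq hric (fun i => isForm_ric (hY i)) h hc, Matrix.mul_sum]
  refine Finset.sum_eq_zero fun j _ => ?_
  have h1 := hF.liftE_rel hB h hc j
  have h2 : (liftE hF.dsum F i B e (e m)).transpose *
      (jacF (F j) e (chartAt (Cm (d j)) (F j m)) m).transpose =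
      ((Pi.single i (B (chartAt (Cm (d i)) (F i m)) (chartAt (Cm (d i)) (F i m) (F i m)) *
        jacF (F i) e (chartAt (Cm (d i)) (F i m)) m) :
        ∀ j, Matrix (Fin (d j)) (Fin n) ℂ) j).transpose := by
    rw [← Matrix.transpose_mul, h1]
  rw [← Matrix.mul_assoc, ← Matrix.mul_assoc, h2]
  by_cases hj : j = i
  · subst hj
    rw [Pi.single_eq_same, Matrix.transpose_mul, Matrix.mul_assoc (jacF _ _ _ _).transpose,
      hs _ _ (hc j)]
    simp
  · rw [Pi.single_eq_of_ne hj]
    simp

end metric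

/-! ### The last three fields of `Split` -/

section final
variable {wM : FormM n M} {wY : ∀ i, FormM (d i) (Y i)}

/-- parallel fields of `M` are tangent to the factor of `P0` -/
theorem noParM_of {P0 : FormM n M} {i : ι}
    (h1 : ∀ v, IsParVF wM v → ∀ e m, At e m → (P0 e (e m)).mulVec (v e (e m)) = v e (e m))
    (h2 : ∀ (e : Chart n M) (m : M) (e' : Chart (d i) (Y i)), At e m → At e' (F i m) →
      jacF (F i) e e' m * P0 e (e m) = 0) :
    ∀ v : VField n M, IsParVF wM v → ∀ (e : Chart n M) (m : M) (e' : Chart (d i) (Y i)), At e m →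
      At e' (F i m) → (jacF (F i) e e' m).mulVec (v e (e m)) = 0 := by
  intro v hv e m e' h h'
  rw [← h1 v hv e m h, Matrix.mulVec_mulVec, h2 e m e' h h', Matrix.zero_mulVec]

/-- there are no parallel fields on the other factors -/
theorem Dec.noPar_of (hF : Dec (n := n) (d := d) F) (hw : IsProd F wM wY)
    (hY : ∀ i, IsForm (wY i)) {i : ι} (hs : Function.Surjective (F i))
    (hno : ∀ v : VField n M, IsParVF wM v → ∀ (e : Chart n M) (m : M) (e' : Chart (d i) (Y i)),
      At e m → At e' (F i m) → (jacF (F i) e e' m).mulVec (v e (e m)) = 0) :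
    ∀ v : VField (d i) (Y i), IsParVF (wY i) v → ∀ e y, At e y → v e (e y) = 0 := by
  intro v hv e y h
  obtain ⟨m, rfl⟩ := hs y
  have h0 : At (chartAt (Cm n) m) m := at_chartAt m
  have hc : ∀ j, At (chartAt (Cm (d j)) (F j m)) (F j m) := fun j => at_chartAt _
  have h' : ∀ j, At (Function.update (fun j => chartAt (Cm (d j)) (F j m)) i e j) (F j m) := by
    intro j
    by_cases hj : j = i
    · subst hj; rw [Function.update_self]; exact h
    · rw [Function.update_of_ne hj]; exact hc j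
  have h1 := hF.liftV_rel hv.toIsHolVF h0 h' i
  rw [Pi.single_eq_same, Function.update_self] at h1
  rw [← h1]
  exact hno _ (hF.liftV_par hw hY hv) _ m e h0 h

/-- the Jacobian of a projection is surjective -/
lemma Dec.exists_right (hF : Dec (n := n) (d := d) F) {e : Chart n M} {m : M} (h : At e m) {i : ι}
    {e' : Chart (d i) (Y i)} (h' : At e' (F i m)) :
    ∃ R : Matrix (Fin n) (Fin (d i)) ℂ, jacF (F i) e e' m * R = 1 := by
  have hc : ∀ j, At (chartAt (Cm (d j)) (F j m)) (F j m) := fun j => at_chartAt _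
  have h'' : ∀ j, At (Function.update (fun j => chartAt (Cm (d j)) (F j m)) i e' j) (F j m) := by
    intro j
    by_cases hj : j = i
    · subst hj; rw [Function.update_self]; exact h'
    · rw [Function.update_of_ne hj]; exact hc j
  have h1 := stk_solve (σ := sig hF.dsum) (hF.unit h h'')
    (Pi.single i (1 : Matrix (Fin (d i)) (Fin (d i)) ℂ)) i
  rw [Pi.single_eq_same, Function.update_self] at h1
  exact ⟨_, h1⟩

/-- there are no self-adjoint holomorphic endomorphism fields killed by `Ric` on a factor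
orthogonal to the maximal projection `P` -/
theorem Dec.noEnd_of (hF : Dec (n := n) (d := d) F) (hw : IsProd F wM wY)
    (hric : IsProd F (ric wM) fun i => ric (wY i)) (hY : ∀ i, IsHermitian (wY i)) {i : ι}
    (hs : Function.Surjective (F i)) {P : FormM n M}
    (hmax : ∀ B : FormM n M, ParEnd wM B → RicKills wM B → ∀ e x, At e x →
      P e (e x) * B e (e x) = B e (e x))
    (hJP : ∀ (e : Chart n M) (m : M) (e' : Chart (d i) (Y i)), At e m → At e' (F i m) →
      jacF (F i) e e' m * P e (e m) = 0) :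
    ∀ B : FormM (d i) (Y i), IsHolEnd B → IsSelfAdj (wY i) B → RicKills (wY i) B →
      ∀ e y, At e y → B e (e y) = 0 := by
  intro B hB hsa hk e y h
  obtain ⟨m, rfl⟩ := hs y
  have h0 : At (chartAt (Cm n) m) m := at_chartAt m
  have hc : ∀ j, At (chartAt (Cm (d j)) (F j m)) (F j m) := fun j => at_chartAt _
  have h' : ∀ j, At (Function.update (fun j => chartAt (Cm (d j)) (F j m)) i e j) (F j m) := by
    intro j
    by_cases hj : j = i
    · subst hj; rw [Function.update_self]; exact h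
    · rw [Function.update_of_ne hj]; exact hc j
  have h1 := hF.liftE_rel hB h0 h' i
  rw [Pi.single_eq_same, Function.update_self] at h1
  have h2 := hmax _ ⟨hF.liftE_hol hB, hF.liftE_sa hw (fun i => (hY i).isForm) hB hsa⟩
    (hF.liftE_ric hric hY hB hk) _ m h0
  have h3 : B e (e (F i m)) * jacF (F i) (chartAt (Cm n) m) e m = 0 := by
    rw [← h1, ← h2, ← Matrix.mul_assoc, hJP _ m e h0 h, Matrix.zero_mul]
  obtain ⟨R, hR⟩ := hF.exists_right h0 h
  calc B e (e (F i m)) = B e (e (F i m)) * (jacF (F i) (chartAt (Cm n) m) e m * R) := by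
        rw [hR, Matrix.mul_one]
    _ = 0 := by rw [← Matrix.mul_assoc, h3, Matrix.zero_mul]

end final

end lift

end Vale.Agent.P299.H227.Fld
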