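import Vale.Agent.P299.H227.Dev0
import Vale.Agent.P299.H996.D1.Glue
import Vale.Agent.P299.H723.D1.Proj

/-!
# P299, part D, D1-ASM: the splitting of the universal covering

`exists_split` puts the pieces together: universal covering, parallel projections,
holomorphic product decomposition, product metric, flat factor, absence of parallel fields.
-/

open scoped Manifold ContDiff ComplexOrder Topology
open Complex Vale.Agent.P272.K Vale.Agent.P278.H837 Vale.Agent.P299.D Vale.Agent.P299.H956
open Vale.Agent.P299.D1 (Pr UC exists_uc exists_Q exists_prodQ)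
open Vale.Agent.P299.H227.Fld

set_option linter.all false

noncomputable section

namespace Vale.Agent.P299.H227.Asm

section pr
variable {k n : ℕ} {X M : Type} [TopologicalSpace X] [ChartedSpace (Cm n) X]
  [IsManifold 𝓘(ℂ, Cm n) ω X] [TopologicalSpace M] [ChartedSpace (Cm n) M]
  [IsManifold 𝓘(ℂ, Cm n) ω M] {π : M → X}

/-- the projections of a product decomposition -/
abbrev pF (P : Pr k n M π) : (i : Fin k) → M → P.Y i := fun i m => P.Φ m i

theorem dec (P : Pr k n M π) : Dec (n := n) (d := P.d) (pF P) := ⟨P.dsum, P.Φ_hol, P.jac_inj⟩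

theorem surj (P : Pr k n M π) (i : Fin k) : Function.Surjective (pF P i) := by
  classical
  intro z
  refine ⟨P.Φ.symm (Function.update (fun j => Classical.choice inferInstance) i z), ?_⟩
  show P.Φ (P.Φ.symm _) i = z
  rw [P.Φ.apply_symm_apply, Function.update_self]

/-- the slice through the factor `Y i` -/
def slc (P : Pr k n M π) (i : Fin k) (y : (i : Fin k) → P.Y i) : P.Y i → M :=
  fun z => P.Φ.symm (Function.update y i z)

theorem isSlice (P : Pr k n M π) (i : Fin k) (y : (i : Fin k) → P.Y i) :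
    IsSlice (n := n) (d := P.d) (pF P) i (slc P i y) where
  hol := P.slice_hol i y
  self z := by
    show P.Φ (P.Φ.symm _) i = z
    rw [P.Φ.apply_symm_apply, Function.update_self]
  other j hj z z' := by
    show P.Φ (P.Φ.symm _) j = P.Φ (P.Φ.symm _) j
    rw [P.Φ.apply_symm_apply, P.Φ.apply_symm_apply, Function.update_of_ne hj,
      Function.update_of_ne hj]

end pr

section main
variable {n : ℕ} {X : Type} [TopologicalSpace X] [T2Space X] [CompactSpace X] [ConnectedSpace X]
  [ChartedSpace (Cm n) X] [IsManifold 𝓘(ℂ, Cm n) ω X] {w : FormM n X}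

/-- **D1-ASM** -/
theorem exists_split (hw : IsKahler w) (hric : RicNonneg w) : Nonempty (Split n X w) := by
  classical
  obtain ⟨U⟩ := exists_uc n X
  haveI : Nonempty U.M := inferInstance
  obtain ⟨P0, P, Q, h0, hP, c1, c2, hQ, hQQ, horth, hsum, q0, q1, q2⟩ := exists_Q U hw
  obtain ⟨R, hR⟩ := exists_prodQ (M := U.M) U.cov U.loc hw hQ hQQ horth hsum
  have hqd := H996.D1.qd U.loc hw R hQ hsum hR
  obtain ⟨wY, kah, hprod, iso, ricY, ricK, ricP⟩ := H996.D1.exists_metric U.loc hw R hqd
  have hF := dec R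
  -- kernel identities
  have k0 : ∀ i, i ≠ 0 → ∀ (e : Chart n U.M) (m : U.M) (e' : Chart (R.d i) (R.Y i)), At e m →
      At e' (R.Φ m i) → jacF (fun m => R.Φ m i) e e' m * P0 e (e m) = 0 := by
    intro i hi e m e' h h'
    rw [← q0 e m h]
    exact hR 0 i hi e m e' h h'
  have k2 : ∀ (e : Chart n U.M) (m : U.M) (e' : Chart (R.d 2) (R.Y 2)), At e m →
      At e' (R.Φ m 2) → jacF (fun m => R.Φ m 2) e e' m * P e (e m) = 0 := by
    intro e m e' h h'
    have h1 := hR 1 2 (by decide) e m e' h h'
    rw [q1 e m h, Matrix.mul_sub, k0 2 (by decide) e m e' h h', sub_zero] at h1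
    exact h1
  have kJ : ∀ (e : Chart n U.M) (m : U.M) (e' : Chart (R.d 0) (R.Y 0)), At e m →
      At e' (R.Φ m 0) → jacF (fun m => R.Φ m 0) e e' m * P0 e (e m) =
        jacF (fun m => R.Φ m 0) e e' m := by
    intro e m e' h h'
    have h1 := hqd.sum e m h
    rw [Fin.sum_univ_three] at h1
    have h2 := congrArg (fun A => jacF (fun m => R.Φ m 0) e e' m * A) h1
    simp only [Matrix.mul_add, Matrix.mul_one] at h2
    rw [hR 1 0 (by decide) e m e' h h', hR 2 0 (by decide) e m e' h h', q0 e m h, add_zero,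
      add_zero] at h2
    exact h2
  have r0 : RicKills (pullM U.π w : FormM n U.M) (pullE U.π (Q 0)) := by
    intro e m h
    rw [q0 e m h]
    exact h0.ric e m h
  have r1 : RicKills (pullM U.π w : FormM n U.M) (pullE U.π (Q 1)) := by
    intro e m h
    rw [q1 e m h, Matrix.transpose_sub, Matrix.sub_mul]
    have a := h0.ric e m h
    have b := hP.ric e m h
    rw [a, b, sub_zero]
  have hNM : ∀ v : VField n U.M, IsParVF (pullM U.π w) v → ∀ i, i ≠ 0 →
      ∀ (e : Chart n U.M) (m : U.M) (e' : Chart (R.d i) (R.Y i)), At e m → At e' (R.Φ m i) →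
      (jacF (fun m => R.Φ m i) e e' m).mulVec (v e (e m)) = 0 := by
    intro v hv i hi
    exact noParM_of (F := pF R) (i := i) h0.fix (k0 i hi) v hv
  haveI : LocallyCompactSpace U.M := ChartedSpace.locallyCompactSpace (Cm n) U.M
  obtain ⟨K, hK, hKG⟩ := exists_compact_of_deck (π := U.π) (f := pF R 0) (ρ := R.ρ 0)
    U.loc.isOpenMap U.surj U.gal (R.Φ_hol 0).continuous (surj R 0) (fun γ m => R.equiv γ m 0)
  obtain ⟨D, D1, D2, D3⟩ := exists_dev0 (i := (0 : Fin 3)) hF
    (isSlice R 0 (fun j => Classical.choice inferInstance)) hprod kah h0.span kJ (R.ρ 0)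
    (R.ρ_hol 0) (iso 0) hK hKG
  exact ⟨{
    M := U.M
    topM := U.topM
    chM := U.chM
    mfdM := U.mfdM
    t2M := U.t2M
    scM := U.scM
    secM := U.secM
    π := U.π
    cov := U.cov
    surj := U.surj
    loc := U.loc
    gal := U.gal
    d := R.d
    Y := R.Y
    topY := R.topY
    chY := R.chY
    mfdY := R.mfdY
    t2Y := R.t2Y
    scY := R.scY
    secY := R.secY
    dsum := R.dsum
    Φ := R.Φ
    Φ_hol := R.Φ_hol
    slice_hol := R.slice_hol
    jac_inj := R.jac_inj
    wY := wY
    kahY := kah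
    prod := hprod
    ρ := R.ρ
    ρ_hol := R.ρ_hol
    equiv := R.equiv
    ρ_iso := iso
    ricY := ricY hric
    ric0 := ricK 0 r0
    ric1 := ricK 1 r1
    dev := D
    dev_hol := D1
    dev_symm_hol := D2
    dev_iso := D3
    noParM := hNM
    noPar := fun i hi => Dec.noPar_of hF hprod (fun i => (kah i).toIsHermitian.isForm) (surj R i)
      (fun v hv => hNM v hv i hi)
    noEnd := Dec.noEnd_of hF hprod ricP (fun i => (kah i).toIsHermitian) (surj R 2) hP.max k2 }⟩

end main

/-- **D1** -/
theorem d1Statement : D1Statement := by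
  intro n X _ _ _ _ _ _ w hw hric
  exact exists_split hw hric

end Vale.Agent.P299.H227.Asm
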