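import Mathlib.Topology.Homotopy.Lifting
import Mathlib.Topology.Germ
import Mathlib.Tactic

/-!
Monodromy for systems of germs: copied from `Vale/Agent/P278/Bdl/B2.lean` (`Vale.Agent.P278.Etale`,
`exists_global_of_germs`), to avoid importing that large file.
-/

open Set Topology Filter

namespace Vale.Agent.P299.H227


section
variable {M Z : Type*} [TopologicalSpace M] (V : ∀ x : M, Set (Germ (𝓝 x) Z))

/-- The space of germs. -/
def Etale : Type _ := Σ x : M, V x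

namespace Etale

instance : TopologicalSpace (Etale V) where
  IsOpen O := ∀ (f : M → Z) (x : M) (hf : (f : Germ (𝓝 x) Z) ∈ V x),
    (⟨x, ⟨f, hf⟩⟩ : Etale V) ∈ O →
      ∀ᶠ y in 𝓝 x, ∀ hy : (f : Germ (𝓝 y) Z) ∈ V y, (⟨y, ⟨f, hy⟩⟩ : Etale V) ∈ O
  isOpen_univ := fun f x hf _ => Eventually.of_forall fun y hy => mem_univ _
  isOpen_inter := by
    intro O O' h h' f x hf hx
    filter_upwards [h f x hf hx.1, h' f x hf hx.2] with y h1 h2 hy
    exact ⟨h1 hy, h2 hy⟩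
  isOpen_sUnion := by
    intro 𝒪 h f x hf hx
    obtain ⟨O, hO, hxO⟩ := hx
    filter_upwards [h O hO f x hf hxO] with y h1 hy
    exact ⟨O, hO, h1 hy⟩

variable {V}

theorem isOpen_iff {O : Set (Etale V)} : IsOpen O ↔
    ∀ (f : M → Z) (x : M) (hf : (f : Germ (𝓝 x) Z) ∈ V x), (⟨x, ⟨f, hf⟩⟩ : Etale V) ∈ O →
      ∀ᶠ y in 𝓝 x, ∀ hy : (f : Germ (𝓝 y) Z) ∈ V y, (⟨y, ⟨f, hy⟩⟩ : Etale V) ∈ O := Iff.rfl

/-- The projection. -/
def proj (s : Etale V) : M := s.1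

theorem continuous_proj : Continuous (proj (V := V)) := by
  rw [continuous_def]
  intro U hU
  rw [isOpen_iff]
  intro f x hf hx
  filter_upwards [hU.mem_nhds hx] with y hy _
  exact hy

/-- Graph of a function over an open set. -/
theorem isOpen_graph {U : Set M} (hU : IsOpen U) (f : M → Z) :
    IsOpen {s : Etale V | s.1 ∈ U ∧ (s.2.1 : Germ (𝓝 s.1) Z) = (f : Germ (𝓝 s.1) Z)} := by
  rw [isOpen_iff]
  rintro g x hg ⟨hx, hgf⟩
  have h1 : g =ᶠ[𝓝 x] f := Germ.coe_eq.1 hgf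
  filter_upwards [hU.mem_nhds hx, h1.eventuallyEq_nhds] with y hy hy2 _
  exact ⟨hy, Germ.coe_eq.2 hy2⟩

end Etale

variable {V}

/-- The local triviality hypothesis implies that the space of germs is a covering. -/
theorem isCoveringMap_etale
    (h : ∀ x : M, ∃ (U : Set M) (S : Set (M → Z)), IsOpen U ∧ x ∈ U ∧
      (∀ f ∈ S, ∀ y ∈ U, ((f : M → Z) : Germ (𝓝 y) Z) ∈ V y) ∧
      (∀ y ∈ U, ∀ γ ∈ V y, ∃ f ∈ S, ((f : M → Z) : Germ (𝓝 y) Z) = γ) ∧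
      (∀ f ∈ S, ∀ f' ∈ S, ∀ y ∈ U, f =ᶠ[𝓝 y] f' → ∀ z ∈ U, f =ᶠ[𝓝 z] f')) :
    IsCoveringMap (Etale.proj (V := V)) := by
  intro x
  obtain ⟨U, S, hUo, hxU, ha, hb, hc⟩ := h x
  let I : Type _ := V x
  let _ : TopologicalSpace I := ⊥
  have _ : DiscreteTopology I := ⟨rfl⟩
  -- representative of a germ
  have rep : ∀ s : Etale V, s.1 ∈ U → ∃ f ∈ S, ((f : M → Z) : Germ (𝓝 s.1) Z) = s.2.1 :=
    fun s hs => hb s.1 hs s.2.1 s.2.2
  have repI : ∀ δ : I, ∃ f ∈ S, ((f : M → Z) : Germ (𝓝 x) Z) = δ.1 := fun δ => hb x hxU δ.1 δ.2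
  choose g hgS hg using repI
  choose k hkS hk using rep
  refine IsEvenlyCovered.to_isEvenlyCovered_preimage (I := I) ⟨inferInstance, U, hxU, hUo,
    hUo.preimage Etale.continuous_proj, ?_⟩
  let toI : (s : Etale V) → s.1 ∈ U → I := fun s hs =>
    ⟨((k s hs : M → Z) : Germ (𝓝 x) Z), ha _ (hkS s hs) x hxU⟩
  -- the germ of `g (toI s)` at `s.1` is `s.2`
  have hback : ∀ (s : Etale V) (hs : s.1 ∈ U),
      ((g (toI s hs) : M → Z) : Germ (𝓝 s.1) Z) = s.2.1 := by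
    intro s hs
    have h1 : ((g (toI s hs) : M → Z) : Germ (𝓝 x) Z) = ((k s hs : M → Z) : Germ (𝓝 x) Z) :=
      hg (toI s hs)
    have h2 := hc _ (hgS (toI s hs)) _ (hkS s hs) x hxU (Germ.coe_eq.1 h1) s.1 hs
    rw [Germ.coe_eq.2 h2]
    exact hk s hs
  have hforth : ∀ (s : Etale V) (hs : s.1 ∈ U) (δ : I),
      s.2.1 = ((g δ : M → Z) : Germ (𝓝 s.1) Z) → toI s hs = δ := by
    intro s hs δ hδ
    apply Subtype.ext
    show ((k s hs : M → Z) : Germ (𝓝 x) Z) = δ.1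
    rw [← hg δ]
    have h1 : ((k s hs : M → Z) : Germ (𝓝 s.1) Z) = ((g δ : M → Z) : Germ (𝓝 s.1) Z) := by
      rw [hk s hs]; exact hδ
    exact Germ.coe_eq.2 (hc _ (hkS s hs) _ (hgS δ) s.1 hs (Germ.coe_eq.1 h1) x hxU)
  let inv : U × I → Etale.proj (V := V) ⁻¹' U := fun w =>
    ⟨⟨w.1.1, ⟨((g w.2 : M → Z) : Germ (𝓝 w.1.1) Z), ha _ (hgS w.2) w.1.1 w.1.2⟩⟩, w.1.2⟩
  refine ⟨{ toFun := fun s => (⟨s.1.1, s.2⟩, toI s.1 s.2)
            invFun := inv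
            left_inv := ?_
            right_inv := ?_
            continuous_toFun := ?_
            continuous_invFun := ?_ }, ?_⟩
  · rintro ⟨⟨y, ⟨γ, hγ⟩⟩, hy⟩
    apply Subtype.ext
    have := hback ⟨y, ⟨γ, hγ⟩⟩ hy
    simp only [inv]
    congr 1
    exact Subtype.ext this
  · rintro ⟨⟨y, hy⟩, δ⟩
    exact Prod.ext rfl (hforth _ hy δ rfl)
  · refine Continuous.prodMk ((Etale.continuous_proj.comp continuous_subtype_val).subtype_mk _) ?_
    rw [continuous_discrete_rng]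
    intro δ
    have : (fun s : Etale.proj (V := V) ⁻¹' U => toI s.1 s.2) ⁻¹' {δ} =
        Subtype.val ⁻¹' {s : Etale V | s.1 ∈ U ∧
          (s.2.1 : Germ (𝓝 s.1) Z) = ((g δ : M → Z) : Germ (𝓝 s.1) Z)} := by
      ext ⟨s, hs⟩
      constructor
      · intro h1
        have h1' : toI s hs = δ := h1
        refine ⟨hs, ?_⟩
        rw [← h1']
        exact (hback s hs).symm
      · rintro ⟨_, h1⟩
        exact hforth s hs δ h1
    rw [this]
    exact (Etale.isOpen_graph hUo (g δ)).preimage continuous_subtype_val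
  · rw [continuous_induced_rng, continuous_iff_continuousAt]
    rintro ⟨⟨y, hy⟩, δ⟩
    have hδ : 𝓝 δ = pure δ := by rw [nhds_discrete]
    rw [ContinuousAt, nhds_prod_eq, hδ, Filter.prod_pure, Filter.tendsto_map'_iff]
    intro O hO
    rw [Filter.mem_map]
    obtain ⟨O', hO'O, hO'o, hyO'⟩ := mem_nhds_iff.1 hO
    have h1 := hO'o (g δ) y (ha _ (hgS δ) y hy) hyO'
    have h2 : ∀ᶠ y' : U in 𝓝 (⟨y, hy⟩ : U), ∀ hy' : ((g δ : M → Z) : Germ (𝓝 y'.1) Z) ∈ V y'.1,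
        (⟨y'.1, ⟨g δ, hy'⟩⟩ : Etale V) ∈ O' :=
      (continuous_subtype_val.tendsto (⟨y, hy⟩ : U)).eventually h1
    filter_upwards [h2] with y' hy'
    exact hO'O (hy' (ha _ (hgS δ) y'.1 y'.2))
  · rintro ⟨s, hs⟩
    rfl

/-- **Monodromy**: on a simply connected space, a locally trivial system of germs has a global
section through each germ. -/
theorem exists_global_of_germs [SimplyConnectedSpace M] [LocallyPathConnectedSpace M]
    (h : ∀ x : M, ∃ (U : Set M) (S : Set (M → Z)), IsOpen U ∧ x ∈ U ∧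
      (∀ f ∈ S, ∀ y ∈ U, ((f : M → Z) : Germ (𝓝 y) Z) ∈ V y) ∧
      (∀ y ∈ U, ∀ γ ∈ V y, ∃ f ∈ S, ((f : M → Z) : Germ (𝓝 y) Z) = γ) ∧
      (∀ f ∈ S, ∀ f' ∈ S, ∀ y ∈ U, f =ᶠ[𝓝 y] f' → ∀ z ∈ U, f =ᶠ[𝓝 z] f'))
    (x₀ : M) (f₀ : M → Z) (hf₀ : ((f₀ : M → Z) : Germ (𝓝 x₀) Z) ∈ V x₀) :
    ∃ F : M → Z, (∀ x, ((F : M → Z) : Germ (𝓝 x) Z) ∈ V x) ∧ F =ᶠ[𝓝 x₀] f₀ := by
  have hcov := isCoveringMap_etale h
  obtain ⟨σ, ⟨hσ0, hσ⟩, -⟩ := hcov.existsUnique_continuousMap_lifts (ContinuousMap.id M) x₀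
    ⟨x₀, ⟨f₀, hf₀⟩⟩ rfl
  have hσ' : ∀ x, (σ x).1 = x := fun x => congrFun hσ x
  let F : M → Z := fun x => Germ.value (σ x).2.1
  -- local description
  have key : ∀ (x : M) (f : M → Z) (U : Set M), IsOpen U → x ∈ U →
      (σ x).2.1 = ((f : M → Z) : Germ (𝓝 (σ x).1) Z) → F =ᶠ[𝓝 x] f := by
    intro x f U hU hx hf
    have hO := Etale.isOpen_graph (V := V) hU f
    have hmem : σ x ∈ {s : Etale V | s.1 ∈ U ∧
        (s.2.1 : Germ (𝓝 s.1) Z) = ((f : M → Z) : Germ (𝓝 s.1) Z)} :=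
      ⟨by rw [hσ']; exact hx, hf⟩
    filter_upwards [σ.continuous.continuousAt.eventually_mem (hO.mem_nhds hmem)] with y hy
    have h1 : F y = f (σ y).1 := by
      show Germ.value (σ y).2.1 = f (σ y).1
      rw [hy.2]; rfl
    rw [h1, hσ']
  refine ⟨F, ?_, ?_⟩
  · intro x
    obtain ⟨U, S, hUo, hxU, ha, hb, hc⟩ := h x
    obtain ⟨f, hfS, hf⟩ := hb (σ x).1 (by rw [hσ']; exact hxU) (σ x).2.1 (σ x).2.2
    have := key x f U hUo hxU hf.symm
    rw [Germ.coe_eq.2 this]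
    exact ha f hfS x hxU
  · apply key x₀ f₀ univ isOpen_univ (mem_univ _)
    rw [hσ0]

end


end Vale.Agent.P299.H227
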