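import Mathlib
import Vale.Agent.P299.H227.Germs

/-!
P299, D1-DEV: a local homeomorphism to a normed space which is equivariant for a cocompact group of
homeomorphisms acting by isometries on the target is a homeomorphism.
-/

open Set Topology Filter Metric

namespace Vale.Agent.P299.H227

section
variable {Y E : Type*} [TopologicalSpace Y] [NormedAddCommGroup E]

/-- `f` has a continuous section on the ball of radius `r` around `f y`, through `y`. -/
def HasSec (f : Y → E) (r : ℝ) (y : Y) : Prop :=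
  ∃ s : E → Y, ContinuousOn s (ball (f y) r) ∧ (∀ z ∈ ball (f y) r, f (s z) = z) ∧ s (f y) = y

theorem HasSec.mono {f : Y → E} {r r' : ℝ} {y : Y} (h : HasSec f r y) (hr : r' ≤ r) :
    HasSec f r' y := by
  obtain ⟨s, h1, h2, h3⟩ := h
  exact ⟨s, h1.mono (ball_subset_ball hr), fun z hz => h2 z (ball_subset_ball hr hz), h3⟩

theorem exists_hasSec {f : Y → E} (hf : IsLocalHomeomorph f) (y : Y) :
    ∃ r : ℝ, 0 < r ∧ ∀ᶠ y' in 𝓝 y, HasSec f r y' := by
  obtain ⟨e, hye, hef⟩ := hf y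
  have hfe : ∀ x, f x = e x := fun x => congrFun hef x
  have hty : f y ∈ e.target := by rw [hfe]; exact e.map_source hye
  obtain ⟨r, hr, hrt⟩ := Metric.isOpen_iff.1 e.open_target (f y) hty
  refine ⟨r / 2, by positivity, ?_⟩
  have h1 : ∀ᶠ y' in 𝓝 y, f y' ∈ ball (f y) (r / 2) :=
    hf.continuous.continuousAt.eventually (ball_mem_nhds _ (by positivity))
  filter_upwards [h1, e.open_source.mem_nhds hye] with y' hy' hys
  have hsub : ball (f y') (r / 2) ⊆ e.target := by
    refine Subset.trans ?_ hrt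
    refine ball_subset_ball' ?_
    have := mem_ball.1 hy'
    linarith
  refine ⟨e.symm, e.continuousOn_symm.mono hsub, fun z hz => ?_, ?_⟩
  · rw [hfe]; exact e.right_inv (hsub hz)
  · rw [hfe]; exact e.left_inv hys

theorem exists_uniform_hasSec {f : Y → E} (hf : IsLocalHomeomorph f) {K : Set Y}
    (hK : IsCompact K) : ∃ r : ℝ, 0 < r ∧ ∀ y ∈ K, HasSec f r y := by
  choose r hr h using exists_hasSec hf
  obtain ⟨t, -, ht⟩ := hK.elim_nhds_subcover (fun y => {y' | HasSec f (r y) y'}) (fun y _ => h y)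
  rcases t.eq_empty_or_nonempty with he | hne
  · refine ⟨1, one_pos, fun y hy => ?_⟩
    have := ht hy
    rw [he] at this
    simp at this
  obtain ⟨y₀, hy₀, hmin⟩ := t.exists_min_image r hne
  refine ⟨r y₀, hr y₀, fun y hy => ?_⟩
  have := ht hy
  simp only [mem_iUnion] at this
  obtain ⟨x, hx, hxy⟩ := this
  exact HasSec.mono hxy (hmin x hx)

theorem HasSec.transport {f : Y → E} {r : ℝ} {y : Y} (φ : Y ≃ₜ Y) (T : E ≃ᵢ E)
    (hφ : ∀ z, f (φ z) = T (f z)) (h : HasSec f r (φ y)) : HasSec f r y := by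
  obtain ⟨s, h1, h2, h3⟩ := h
  have hT : MapsTo T (ball (f y) r) (ball (f (φ y)) r) := by
    intro z hz
    rw [mem_ball, hφ, T.dist_eq]
    exact hz
  refine ⟨fun z => φ.symm (s (T z)), ?_, fun z hz => ?_, ?_⟩
  · exact φ.symm.continuous.comp_continuousOn (h1.comp T.continuous.continuousOn hT)
  · have h4 := hφ (φ.symm (s (T z)))
    rw [φ.apply_symm_apply, h2 _ (hT hz)] at h4
    exact (T.injective h4).symm
  · show φ.symm (s (T (f y))) = y
    rw [← hφ, h3, φ.symm_apply_apply]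

end

section
variable {Y E : Type*} [TopologicalSpace Y] [T2Space Y] [PreconnectedSpace Y] [Nonempty Y]
  [NormedAddCommGroup E] [NormedSpace ℝ E]

theorem homeo_of_hasSec {f : Y → E} (hf : IsLocalHomeomorph f) {r : ℝ} (hr : 0 < r)
    (h : ∀ y, HasSec f r y) : ∃ F : Y ≃ₜ E, ∀ y, F y = f y := by
  obtain ⟨y₀⟩ := ‹Nonempty Y›
  have hsep : IsSeparatedMap f := T2Space.isSeparatedMap f
  have hinj := hf.isLocallyInjective
  -- the germs of local sections
  let V : ∀ z : E, Set (Germ (𝓝 z) Y) := fun z =>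
    {γ | ∃ s : E → Y, (s : Germ (𝓝 z) Y) = γ ∧ ∀ᶠ z' in 𝓝 z, ContinuousAt s z' ∧ f (s z') = z'}
  have hV : ∀ (z : E) (s : E → Y), ((s : E → Y) : Germ (𝓝 z) Y) ∈ V z →
      ∀ᶠ z' in 𝓝 z, ContinuousAt s z' ∧ f (s z') = z' := by
    rintro z s ⟨s', hs', h'⟩
    have h1 : s' =ᶠ[𝓝 z] s := Germ.coe_eq.1 hs'
    filter_upwards [h', h1.eventuallyEq_nhds] with z' hz' hz''
    exact ⟨hz'.1.congr hz'', by rw [← hz''.eq_of_nhds]; exact hz'.2⟩
  have hloc : ∀ z : E, ∃ (U : Set E) (S : Set (E → Y)), IsOpen U ∧ z ∈ U ∧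
      (∀ s ∈ S, ∀ y ∈ U, ((s : E → Y) : Germ (𝓝 y) Y) ∈ V y) ∧
      (∀ y ∈ U, ∀ γ ∈ V y, ∃ s ∈ S, ((s : E → Y) : Germ (𝓝 y) Y) = γ) ∧
      (∀ s ∈ S, ∀ s' ∈ S, ∀ y ∈ U, s =ᶠ[𝓝 y] s' → ∀ x ∈ U, s =ᶠ[𝓝 x] s') := by
    intro z
    refine ⟨ball z (r / 2), {s | ContinuousOn s (ball z (r / 2)) ∧ ∀ x ∈ ball z (r / 2),
      f (s x) = x}, isOpen_ball, mem_ball_self (by positivity), ?_, ?_, ?_⟩
    · rintro s ⟨hs1, hs2⟩ y hy
      refine ⟨s, rfl, ?_⟩
      filter_upwards [isOpen_ball.mem_nhds hy] with x hx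
      exact ⟨hs1.continuousAt (isOpen_ball.mem_nhds hx), hs2 x hx⟩
    · rintro y hy γ ⟨s₀, rfl, hs₀⟩
      obtain ⟨s, hs1, hs2, hs3⟩ := h (s₀ y)
      have hfy : f (s₀ y) = y := hs₀.self_of_nhds.2
      rw [hfy] at hs1 hs2 hs3
      have hsub : ball z (r / 2) ⊆ ball y r := by
        refine ball_subset_ball' ?_
        have := mem_ball'.1 hy
        linarith
      refine ⟨s, ⟨hs1.mono hsub, fun x hx => hs2 x (hsub hx)⟩, Germ.coe_eq.2 ?_⟩
      -- local injectivity
      obtain ⟨e, hye, hef⟩ := hf (s₀ y)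
      have hc1 : ContinuousAt s y := hs1.continuousAt (isOpen_ball.mem_nhds (mem_ball_self hr))
      have hc2 : ContinuousAt s₀ y := hs₀.self_of_nhds.1
      have e1 : ∀ᶠ x in 𝓝 y, s x ∈ e.source :=
        hc1.eventually (e.open_source.mem_nhds (by rw [hs3]; exact hye))
      have e2 : ∀ᶠ x in 𝓝 y, s₀ x ∈ e.source := hc2.eventually (e.open_source.mem_nhds hye)
      filter_upwards [e1, e2, hs₀, isOpen_ball.mem_nhds (mem_ball_self hr)] with x h1 h2 h3 h4
      refine e.injOn h1 h2 ?_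
      rw [← hef, hs2 x h4, h3.2]
    · rintro s ⟨hs1, hs2⟩ s' ⟨hs1', hs2'⟩ y hy he x hx
      have h1 : EqOn s s' (ball z (r / 2)) := by
        refine hsep.eqOn_of_comp_eqOn hinj (convex_ball z (r / 2)).isPreconnected hs1 hs1'
          (fun x hx => ?_) hy he.eq_of_nhds
        show f (s x) = f (s' x)
        rw [hs2 x hx, hs2' x hx]
      exact h1.eventuallyEq_of_mem (isOpen_ball.mem_nhds hx)
  obtain ⟨s₀, hs1, hs2, hs3⟩ := h y₀
  obtain ⟨s, hs, hs0⟩ := exists_global_of_germs (V := V) hloc (f y₀) s₀ ⟨s₀, rfl, by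
    filter_upwards [isOpen_ball.mem_nhds (mem_ball_self hr)] with x hx
    exact ⟨hs1.continuousAt (isOpen_ball.mem_nhds hx), hs2 x hx⟩⟩
  have hsc : Continuous s := continuous_iff_continuousAt.2 fun z =>
    (hV z s (hs z)).self_of_nhds.1
  have hfs : ∀ z, f (s z) = z := fun z => (hV z s (hs z)).self_of_nhds.2
  have hsf : s ∘ f = id := by
    refine hsep.eq_of_comp_eq hinj (hsc.comp hf.continuous) continuous_id ?_ y₀ ?_
    · funext y
      exact hfs (f y)
    · show s (f y₀) = y₀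
      rw [hs0.eq_of_nhds, hs3]
  exact ⟨{ toFun := f
           invFun := s
           left_inv := fun y => congrFun hsf y
           right_inv := hfs
           continuous_toFun := hf.continuous
           continuous_invFun := hsc }, fun _ => rfl⟩

/-- A local homeomorphism to a normed space which is equivariant for a cocompact group of
homeomorphisms acting by isometries on the target is a homeomorphism. -/
theorem homeo_of_cocompact {f : Y → E} (hf : IsLocalHomeomorph f) {K : Set Y} (hK : IsCompact K)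
    (h : ∀ y, ∃ (φ : Y ≃ₜ Y) (T : E ≃ᵢ E), φ y ∈ K ∧ ∀ z, f (φ z) = T (f z)) :
    ∃ F : Y ≃ₜ E, ∀ y, F y = f y := by
  obtain ⟨r, hr, hrK⟩ := exists_uniform_hasSec hf hK
  refine homeo_of_hasSec hf hr fun y => ?_
  obtain ⟨φ, T, h1, h2⟩ := h y
  exact (hrK _ h1).transport φ T h2

end

end Vale.Agent.P299.H227
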