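import Vale.Agent.P299.H227.Glue
import Vale.Agent.P299.H227.Unif
import Vale.Agent.P268.Hol

/-!
P299, D1-DEV: a simply connected Kähler manifold with an orthonormal frame of parallel fields and a
cocompact group of holomorphic isometries is isometric to flat `ℂ^d`.
-/

open scoped Manifold ContDiff ComplexOrder Topology
open Set Filter Metric
open Vale.Agent.P272.K Vale.Agent.P278.H837 Vale.Agent.P299.D

noncomputable section

namespace Vale.Agent.P299.H227

section Frame

variable {d : ℕ} {Y : Type*} [TopologicalSpace Y]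

/-- the coefficient matrix `θ_{i,k} = Σ_j w_{k j̄} conj (v_i^j)` of the dual coframe -/
def Th (w : FormM d Y) (v : Fin d → VField d Y) (e : Chart d Y) (z : Cm d) :
    Matrix (Fin d) (Fin d) ℂ := Matrix.of fun i k => lowerV w (v i) e z k

/-- the coefficient matrix `v_i^k` of the frame -/
def Vm (v : Fin d → VField d Y) (e : Chart d Y) (z : Cm d) :
    Matrix (Fin d) (Fin d) ℂ := Matrix.of fun i k => v i e z k

theorem Th_eq (w : FormM d Y) (v : Fin d → VField d Y) (e : Chart d Y) (z : Cm d) :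
    Th w v e z = (w e z * (Vm v e z).conjTranspose).transpose := by
  ext i k
  simp only [Th, Vm, lowerV, Matrix.of_apply, Matrix.transpose_apply, Matrix.mul_apply,
    Matrix.conjTranspose_apply, Matrix.of_apply]
  rfl

variable [ChartedSpace (Cm d) Y]

/-- the frame is orthonormal -/
def IsOrthonormalFrame (w : FormM d Y) (v : Fin d → VField d Y) : Prop :=
  ∀ e y, At e y → ∀ i j, ∑ k, ∑ l, v i e (e y) k * w e (e y) k l *
    (starRingEnd ℂ) (v j e (e y) l) = if i = j then 1 else 0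

variable {w : FormM d Y} {v : Fin d → VField d Y}

theorem frame_mul (ho : IsOrthonormalFrame w v) {e : Chart d Y} {y : Y} (h : At e y) :
    Vm v e (e y) * (w e (e y) * (Vm v e (e y)).conjTranspose) = 1 := by
  ext i j
  rw [Matrix.one_apply, ← ho e y h i j, Matrix.mul_apply]
  refine Finset.sum_congr rfl fun k _ => ?_
  rw [Matrix.mul_apply, Finset.mul_sum]
  refine Finset.sum_congr rfl fun l _ => ?_
  rw [← mul_assoc]
  rfl

theorem frame_mul' (ho : IsOrthonormalFrame w v) {e : Chart d Y} {y : Y} (h : At e y) :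
    (w e (e y) * (Vm v e (e y)).conjTranspose) * Vm v e (e y) = 1 :=
  mul_eq_one_comm.1 (frame_mul ho h)

/-- `Θ · Vᵀ = 1` -/
theorem Th_mul_Vm (ho : IsOrthonormalFrame w v) {e : Chart d Y} {y : Y} (h : At e y) :
    Th w v e (e y) * (Vm v e (e y)).transpose = 1 := by
  rw [Th_eq, ← Matrix.transpose_mul, frame_mul ho h, Matrix.transpose_one]

/-- `Θᵀ · conj Θ = w` -/
theorem Th_pull (hw : IsHermitian w) (ho : IsOrthonormalFrame w v) {e : Chart d Y} {y : Y}
    (h : At e y) :
    (Th w v e (e y)).transpose * (Th w v e (e y)).map (starRingEnd ℂ) = w e (e y) := by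
  have h1 : (Th w v e (e y)).map (starRingEnd ℂ) =
      (w e (e y) * (Vm v e (e y)).conjTranspose).conjTranspose := by
    rw [Th_eq]
    rfl
  rw [h1, Th_eq, Matrix.transpose_transpose, Matrix.conjTranspose_mul,
    Matrix.conjTranspose_conjTranspose, (hw.posDef e y h).isHermitian.eq]
  have h2 := frame_mul' ho h
  calc w e (e y) * (Vm v e (e y)).conjTranspose * (Vm v e (e y) * w e (e y))
      = ((w e (e y) * (Vm v e (e y)).conjTranspose) * Vm v e (e y)) * w e (e y) := by
        simp only [Matrix.mul_assoc]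
    _ = w e (e y) := by rw [h2, Matrix.one_mul]

theorem Vm_change (hv : ∀ i, IsHolVF (v i)) {e e' : Chart d Y} {y : Y} (h : At e y)
    (h' : At e' y) : Vm v e' (e' y) = Vm v e (e y) * (jacM e e' y).transpose := by
  ext i k
  have h1 := congrFun ((hv i).change e e' y h h') k
  show v i e' (e' y) k = _
  rw [h1, Matrix.mul_apply, Matrix.mulVec, dotProduct]
  refine Finset.sum_congr rfl fun l _ => ?_
  rw [mul_comm]
  rfl

theorem Th_change (hw : IsHermitian w) (hv : ∀ i, IsHolVF (v i)) {e e' : Chart d Y} {y : Y}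
    (h : At e y) (h' : At e' y) : Th w v e (e y) = Th w v e' (e' y) * jacM e e' y := by
  rw [Th_eq, Th_eq, Vm_change hv h h', hw.change e e' y h h']
  rw [Matrix.conjTranspose_mul]
  have h1 : (jacM e e' y).transpose.conjTranspose = (jacM e e' y).map (starRingEnd ℂ) := rfl
  rw [h1]
  simp only [Matrix.transpose_mul, Matrix.transpose_transpose, Matrix.mul_assoc]

end Frame

section Prim

variable {d : ℕ} {Y : Type*} [TopologicalSpace Y] [ChartedSpace (Cm d) Y]
  {w : FormM d Y} {v : Fin d → VField d Y}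

/-- the coframe is closed -/
theorem Th_closed (hw : IsKahler w) (hv : ∀ i, IsHolVF (v i)) {e : Chart d Y} {y : Y}
    (h : At e y) (i k l : Fin d) :
    dz l (fun z => Th w v e z i k) (e y) = dz k (fun z => Th w v e z i l) (e y) := by
  have hd : ∀ a b, DifferentiableAt ℝ (fun z => w e z a b) (e y) := fun a b =>
    (hw.smooth e y h a b).differentiableAt (by simp)
  have hvd : ∀ j, DifferentiableAt ℂ (fun z => v i e z j) (e y) := fun j =>
    (differentiableAt_pi.1 ((hv i).holo e y h).differentiableAt) j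
  have hcd : ∀ j, DifferentiableAt ℝ (fun z => cj (v i e z j)) (e y) := fun j => by
    have : (fun z => cj (v i e z j)) = fun z => Complex.conjCLE (v i e z j) := by
      funext z; simp [cj]
    rw [this]
    exact Complex.conjCLE.differentiableAt.comp _ ((hvd j).restrictScalars ℝ)
  have key : ∀ a b, dz a (fun z => Th w v e z i b) (e y) =
      ∑ j, dz a (fun z => w e z b j) (e y) * cj (v i e (e y) j) := by
    intro a b
    have h1 : (fun z => Th w v e z i b) = fun z => ∑ j, w e z b j * cj (v i e z j) := rfl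
    rw [h1, dz_sum (F := fun j z => w e z b j * cj (v i e z j)) _
      fun j _ => (hd b j).mul (hcd j)]
    refine Finset.sum_congr rfl fun j _ => ?_
    rw [dz_mul (hd b j) (hcd j), dz_cj ((hvd j).restrictScalars ℝ), dzb_of_holo (hvd j)]
    simp [cj]
  rw [key, key]
  refine Finset.sum_congr rfl fun j _ => ?_
  rw [hw.closed e y h k j l]

/-- `f` is a primitive of the coframe at `y` -/
def Prim (w : FormM d Y) (v : Fin d → VField d Y) (f : Y → Cm d) (y : Y) : Prop :=
  ∀ e : Chart d Y, At e y → DifferentiableAt ℂ (fun z => f (e.symm z)) (e y) ∧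
    jmat (fun z => f (e.symm z)) (e y) = Th w v e (e y)

variable [IsManifold 𝓘(ℂ, Cm d) ω Y]

theorem prim_of_chart (hw : IsHermitian w) (hv : ∀ i, IsHolVF (v i)) {f : Y → Cm d}
    {e₀ : Chart d Y} {y : Y} (h₀ : At e₀ y)
    (h1 : DifferentiableAt ℂ (fun z => f (e₀.symm z)) (e₀ y))
    (h2 : jmat (fun z => f (e₀.symm z)) (e₀ y) = Th w v e₀ (e₀ y)) : Prim w v f y := by
  intro e h
  have e1 : (fun z => f (e.symm z)) =ᶠ[𝓝 (e y)] fun z => f (e₀.symm (e₀ (e.symm z))) := by
    filter_upwards [h.nhds_at h₀] with z hz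
    rw [hz.2.2.left_inv]
  have e2 : e₀ (e.symm (e y)) = e₀ y := by rw [h.left_inv]
  have hσ : DifferentiableAt ℂ (fun z => f (e₀.symm z)) (e₀ (e.symm (e y))) := by rw [e2]; exact h1
  have hτ := transition_differentiableAt h h₀
  refine ⟨(DifferentiableAt.congr_of_eventuallyEq ?_ e1), ?_⟩
  · exact DifferentiableAt.comp (e y) (g := fun z => f (e₀.symm z))
      (f := fun z => e₀ (e.symm z)) hσ hτ
  · rw [jmat_congr e1, jmat_comp (τ := fun z => e₀ (e.symm z)) (σ := fun z => f (e₀.symm z)) hσ hτ,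
      e2, h2, Th_change hw hv h h₀]
    rfl

end Prim

section Local

variable {d : ℕ}

theorem hasFDerivAt_of_matrix {f : Cm d → Cm d} {z : Cm d} {L : Cm d →L[ℂ] Cm d}
    (h : HasFDerivAt f L z) (p i : Fin d) : jmat f z p i = L (Pi.single i 1) p := by
  rw [jmat_apply h.differentiableAt, h.fderiv]

theorem fderiv_eq_of_jmat {f g : Cm d → Cm d} {z : Cm d} (hf : DifferentiableAt ℂ f z)
    (hg : DifferentiableAt ℂ g z) (h : jmat f z = jmat g z) : fderiv ℂ f z = fderiv ℂ g z := by
  ext u p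
  rw [jmat_mulVec hf, jmat_mulVec hg, h]

theorem exists_const_of_jmat {f g : Cm d → Cm d} {U : Set (Cm d)} (hU : IsOpen U)
    (hc : IsPreconnected U) (hf : ∀ z ∈ U, DifferentiableAt ℂ f z)
    (hg : ∀ z ∈ U, DifferentiableAt ℂ g z) (h : ∀ z ∈ U, jmat f z = jmat g z) :
    ∃ c, ∀ z ∈ U, f z = g z + c := by
  obtain ⟨a, ha⟩ := hU.exists_is_const_of_fderiv_eq_zero (𝕜 := ℂ) (f := fun z => f z - g z) hc
    (fun z hz => ((hf z hz).sub (hg z hz)).differentiableWithinAt) (fun z hz => by
      have h1 : fderiv ℂ (fun z => f z - g z) z = fderiv ℂ f z - fderiv ℂ g z :=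
        fderiv_sub (hf z hz) (hg z hz)
      rw [h1, fderiv_eq_of_jmat (hf z hz) (hg z hz) (h z hz), sub_self]
      rfl)
  exact ⟨a, fun z hz => by rw [← ha z hz]; abel⟩

/-- local primitives of closed matrices of 1-forms -/
theorem exists_local_prim {Θ : Cm d → Matrix (Fin d) (Fin d) ℂ} {U : Set (Cm d)} (hU : IsOpen U)
    (hc : Convex ℝ U) (hd : ∀ z ∈ U, ∀ i k, DifferentiableAt ℂ (fun z => Θ z i k) z)
    (hcl : ∀ z ∈ U, ∀ i k l, dz l (fun z => Θ z i k) z = dz k (fun z => Θ z i l) z) :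
    ∃ F : Cm d → Cm d, ∀ z ∈ U, DifferentiableAt ℂ F z ∧ jmat F z = Θ z := by
  -- the linear map from matrices to operators
  let Λ₀ : (Fin d → Fin d → ℂ) →ₗ[ℂ] (Cm d →L[ℂ] Cm d) :=
    { toFun := fun A => LinearMap.toContinuousLinearMap (Matrix.mulVecLin (Matrix.of A))
      map_add' := fun A B => by
        ext u p
        simp [Matrix.mulVec, dotProduct, add_mul, Finset.sum_add_distrib]
      map_smul' := fun c A => by
        ext u p
        simp [Matrix.mulVec, dotProduct, Finset.mul_sum, mul_assoc] }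
  let Λ : (Fin d → Fin d → ℂ) →L[ℂ] (Cm d →L[ℂ] Cm d) := LinearMap.toContinuousLinearMap Λ₀
  have hΛ : ∀ A u p, Λ A u p = ∑ k, A p k * u k := fun _ _ _ => rfl
  let θ : Cm d → (Fin d → Fin d → ℂ) := fun z i k => Θ z i k
  have hθ : ∀ z ∈ U, DifferentiableAt ℂ θ z := fun z hz =>
    differentiableAt_pi.2 fun i => differentiableAt_pi.2 fun k => hd z hz i k
  have hθ' : ∀ z ∈ U, ∀ u i k, fderiv ℂ θ z u i k = fderiv ℂ (fun z => Θ z i k) z u := by
    intro z hz u i k
    have h1 : HasFDerivAt (fun z => θ z i k) ((ContinuousLinearMap.proj k).comp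
        ((ContinuousLinearMap.proj i).comp (fderiv ℂ θ z))) z := by
      have h2 := hasFDerivAt_pi'.1 (hθ z hz).hasFDerivAt i
      exact hasFDerivAt_pi'.1 h2 k
    have h3 : fderiv ℂ (fun z => Θ z i k) z = (ContinuousLinearMap.proj k).comp
        ((ContinuousLinearMap.proj i).comp (fderiv ℂ θ z)) := h1.fderiv
    rw [h3]
    rfl
  have hω : ∀ z ∈ U, DifferentiableAt ℂ (fun z => Λ (θ z)) z := fun z hz =>
    Λ.differentiableAt.comp z (hθ z hz)
  have hsym : ∀ a ∈ U, ∀ x y, fderiv ℂ (fun z => Λ (θ z)) a x y =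
      fderiv ℂ (fun z => Λ (θ z)) a y x := by
    intro a ha x y
    have h1 : fderiv ℂ (fun z => Λ (θ z)) a = Λ.comp (fderiv ℂ θ a) :=
      ((Λ.hasFDerivAt).comp a (hθ a ha).hasFDerivAt).fderiv
    have h2 : ∀ x y p, fderiv ℂ (fun z => Λ (θ z)) a x y p =
        ∑ k, ∑ l, dz l (fun z => Θ z p k) a * x l * y k := by
      intro x y p
      rw [h1]
      show Λ (fderiv ℂ θ a x) y p = _
      rw [hΛ]
      refine Finset.sum_congr rfl fun k _ => ?_
      rw [hθ' a ha, ← Finset.sum_mul]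
      congr 1
      have hv : x = ∑ l, (x l) • (Pi.single l (1 : ℂ) : Cm d) := by
        funext j
        simp only [Finset.sum_apply, Pi.smul_apply]
        rw [Finset.sum_eq_single j]
        · simp
        · intro b _ hb; simp [hb.symm]
        · simp
      conv_lhs => rw [hv]
      rw [map_sum]
      refine Finset.sum_congr rfl fun l _ => ?_
      rw [map_smul, dz_of_holo (hd a ha p k), smul_eq_mul, mul_comm]
    funext p
    rw [h2, h2, Finset.sum_comm]
    refine Finset.sum_congr rfl fun k _ => Finset.sum_congr rfl fun l _ => ?_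
    rw [hcl a ha p k l]
    ring
  obtain ⟨F, hF⟩ := hc.exists_forall_hasFDerivAt_of_fderiv_symmetric hU
    (fun z hz => ((hω z hz).restrictScalars ℝ).differentiableWithinAt) (fun a ha x y => by
      rw [(hω a ha).fderiv_restrictScalars ℝ]
      exact hsym a ha x y)
  refine ⟨F, fun z hz => ⟨(hF z hz).differentiableAt, ?_⟩⟩
  ext p i
  rw [hasFDerivAt_of_matrix (hF z hz), hΛ]
  simp [θ, Pi.single_apply]

end Local

section Global

variable {d : ℕ} {Y : Type*} [TopologicalSpace Y] [ChartedSpace (Cm d) Y]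
  [IsManifold 𝓘(ℂ, Cm d) ω Y] {w : FormM d Y} {v : Fin d → VField d Y}

omit [IsManifold 𝓘(ℂ, Cm d) ω Y] in
theorem Th_diff (hv : ∀ i, IsParVF w (v i)) {e : Chart d Y} {y : Y} (h : At e y) (i k : Fin d) :
    DifferentiableAt ℂ (fun z => Th w v e z i k) (e y) :=
  (differentiableAt_pi.1 ((hv i).holo' e y h).differentiableAt) k

/-- the global primitive of the coframe -/
theorem exists_prim [SimplyConnectedSpace Y] (hw : IsKahler w) (hv : ∀ i, IsParVF w (v i)) :
    ∃ F : Y → Cm d, ∀ y, Prim w v F y := by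
  have hH := hw.toIsHermitian
  have hv' : ∀ i, IsHolVF (v i) := fun i => (hv i).toIsHolVF
  have : LocallyPathConnectedSpace Y := ChartedSpace.locallyPathConnectedSpace (Cm d) Y
  -- local primitives
  have hloc : ∀ y₀ : Y, ∃ (ε : ℝ) (F : Cm d → Cm d), 0 < ε ∧
      ball (chartAt (Cm d) y₀ y₀) ε ⊆ (chartAt (Cm d) y₀).target ∧
      ∀ z ∈ ball (chartAt (Cm d) y₀ y₀) ε, DifferentiableAt ℂ F z ∧
        jmat F z = Th w v (chartAt (Cm d) y₀) z := by
    intro y₀
    obtain ⟨ε, hε, hεt⟩ := Metric.isOpen_iff.1 (chartAt (Cm d) y₀).open_target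
      (chartAt (Cm d) y₀ y₀) ((chartAt (Cm d) y₀).map_source (mem_chart_source _ _))
    have hat : ∀ z ∈ ball (chartAt (Cm d) y₀ y₀) ε, At (chartAt (Cm d) y₀ : Chart d Y)
        ((chartAt (Cm d) y₀).symm z) := fun z hz => At.of_target (chart_mem_atlas _ _) (hεt hz)
    have hright : ∀ z ∈ ball (chartAt (Cm d) y₀ y₀) ε,
        chartAt (Cm d) y₀ ((chartAt (Cm d) y₀).symm z) = z := fun z hz =>
      (chartAt (Cm d) y₀).right_inv (hεt hz)
    obtain ⟨F, hF⟩ := exists_local_prim (Θ := Th w v (chartAt (Cm d) y₀)) isOpen_ball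
      (convex_ball _ _) (fun z hz i k => by
        have := Th_diff hv (hat z hz) i k
        rwa [hright z hz] at this) (fun z hz i k l => by
        have := Th_closed hw hv' (hat z hz) i k l
        rwa [hright z hz] at this)
    exact ⟨ε, F, hε, hεt, hF⟩
  choose ε F₀ hε hεt hF₀ using hloc
  let e₀ : Y → Chart d Y := fun y => chartAt (Cm d) y
  let U : Y → Set Y := fun y => (e₀ y).source ∩ e₀ y ⁻¹' ball (e₀ y y) (ε y)
  have hU : ∀ y, IsOpen (U y) := fun y => (e₀ y).isOpen_inter_preimage isOpen_ball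
  have hyU : ∀ y, y ∈ U y := fun y => ⟨mem_chart_source _ _, mem_ball_self (hε y)⟩
  have hatU : ∀ y, ∀ x ∈ U y, At (e₀ y) x := fun y x hx => ⟨chart_mem_atlas _ _, hx.1⟩
  have hprim : ∀ (y : Y) (c : Cm d), ∀ x ∈ U y, Prim w v (fun x => F₀ y (e₀ y x) + c) x := by
    intro y c x hx
    have e1 : (fun z => F₀ y (e₀ y ((e₀ y).symm z)) + c) =ᶠ[𝓝 (e₀ y x)] fun z => F₀ y z + c := by
      filter_upwards [(hatU y x hx).nhds_target] with z hz
      rw [(e₀ y).right_inv hz]
    have h1 : DifferentiableAt ℂ (fun z => F₀ y z + c) (e₀ y x) :=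
      ((hF₀ y _ hx.2).1).add_const c
    refine prim_of_chart hH hv' (hatU y x hx) (h1.congr_of_eventuallyEq e1) ?_
    rw [jmat_congr e1, ← (hF₀ y _ hx.2).2]
    ext p i
    have h2 : HasFDerivAt (fun z => F₀ y z + c) (fderiv ℂ (F₀ y) (e₀ y x)) (e₀ y x) :=
      ((hF₀ y _ hx.2).1).hasFDerivAt.add_const c
    rw [hasFDerivAt_of_matrix h2, jmat_apply (hF₀ y _ hx.2).1]
  let V : ∀ y : Y, Set (Germ (𝓝 y) (Cm d)) := fun y =>
    {γ | ∃ f : Y → Cm d, (f : Germ (𝓝 y) (Cm d)) = γ ∧ ∀ᶠ y' in 𝓝 y, Prim w v f y'}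
  have hVself : ∀ (y : Y) (f : Y → Cm d), ((f : Y → Cm d) : Germ (𝓝 y) (Cm d)) ∈ V y →
      Prim w v f y := by
    rintro y f ⟨f', hf', h'⟩
    have h1 : f' =ᶠ[𝓝 y] f := Germ.coe_eq.1 hf'
    intro e he
    have h2 := h'.self_of_nhds e he
    have e1 : (fun z => f (e.symm z)) =ᶠ[𝓝 (e y)] fun z => f' (e.symm z) := by
      have h3 : Tendsto e.symm (𝓝 (e y)) (𝓝 y) := by
        have := e.continuousAt_symm he.mem_target
        rwa [ContinuousAt, he.left_inv] at this
      exact h3.eventually h1.symm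
    exact ⟨h2.1.congr_of_eventuallyEq e1, by rw [jmat_congr e1, h2.2]⟩
  have hmain : ∀ y₀ : Y, ∃ (U : Set Y) (S : Set (Y → Cm d)), IsOpen U ∧ y₀ ∈ U ∧
      (∀ f ∈ S, ∀ y ∈ U, ((f : Y → Cm d) : Germ (𝓝 y) (Cm d)) ∈ V y) ∧
      (∀ y ∈ U, ∀ γ ∈ V y, ∃ f ∈ S, ((f : Y → Cm d) : Germ (𝓝 y) (Cm d)) = γ) ∧
      (∀ f ∈ S, ∀ f' ∈ S, ∀ y ∈ U, f =ᶠ[𝓝 y] f' → ∀ x ∈ U, f =ᶠ[𝓝 x] f') := by
    intro y₀
    refine ⟨U y₀, {f | ∃ c, f = fun x => F₀ y₀ (e₀ y₀ x) + c}, hU y₀, hyU y₀, ?_, ?_, ?_⟩
    · rintro f ⟨c, rfl⟩ y hy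
      exact ⟨_, rfl, by filter_upwards [(hU y₀).mem_nhds hy] with x hx using hprim y₀ c x hx⟩
    · rintro y hy γ ⟨f, rfl, hf⟩
      have hat := hatU y₀ y hy
      -- a ball around `e₀ y` on which everything is defined
      have h3 : Tendsto (e₀ y₀).symm (𝓝 (e₀ y₀ y)) (𝓝 y) := by
        have := (e₀ y₀).continuousAt_symm hat.mem_target
        rwa [ContinuousAt, hat.left_inv] at this
      have h4 : ∀ᶠ z in 𝓝 (e₀ y₀ y), Prim w v f ((e₀ y₀).symm z) ∧
          z ∈ ball (e₀ y₀ y₀) (ε y₀) := (h3.eventually hf).and (isOpen_ball.mem_nhds hy.2)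
      obtain ⟨δ, hδ, hδ'⟩ := Metric.eventually_nhds_iff_ball.1 h4
      have hr : ∀ z ∈ ball (e₀ y₀ y) δ, e₀ y₀ ((e₀ y₀).symm z) = z := fun z hz =>
        (e₀ y₀).right_inv (hεt y₀ (hδ' z hz).2)
      have hatz : ∀ z ∈ ball (e₀ y₀ y) δ, At (e₀ y₀) ((e₀ y₀).symm z) := fun z hz =>
        At.of_target (chart_mem_atlas _ _) (hεt y₀ (hδ' z hz).2)
      obtain ⟨c, hc⟩ := exists_const_of_jmat (f := fun z => f ((e₀ y₀).symm z)) (g := F₀ y₀)
        (U := ball (e₀ y₀ y) δ) isOpen_ball (convex_ball _ _).isPreconnected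
        (fun z hz => by
          have := ((hδ' z hz).1 _ (hatz z hz)).1
          rwa [hr z hz] at this) (fun z hz => (hF₀ y₀ z (hδ' z hz).2).1) (fun z hz => by
          have := ((hδ' z hz).1 _ (hatz z hz)).2
          rw [hr z hz] at this
          rw [this, (hF₀ y₀ z (hδ' z hz).2).2])
      refine ⟨_, ⟨c, rfl⟩, Germ.coe_eq.2 ?_⟩
      have h5 : ∀ᶠ x in 𝓝 y, e₀ y₀ x ∈ ball (e₀ y₀ y) δ :=
        ((e₀ y₀).continuousAt hat.2).eventually (ball_mem_nhds _ hδ)
      filter_upwards [h5, (e₀ y₀).open_source.mem_nhds hat.2] with x hx hxs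
      have h6 := hc _ hx
      rw [(e₀ y₀).left_inv hxs] at h6
      exact h6.symm
    · rintro f ⟨c, rfl⟩ f' ⟨c', rfl⟩ y hy he x hx
      have h1 := he.eq_of_nhds
      rw [add_left_cancel h1]
  obtain ⟨y₀⟩ : Nonempty Y := inferInstance
  obtain ⟨F, hF, -⟩ := exists_global_of_germs (V := V) hmain y₀ (fun x => F₀ y₀ (e₀ y₀ x) + 0)
    ⟨_, rfl, by filter_upwards [(hU y₀).mem_nhds (hyU y₀)] with x hx using hprim y₀ 0 x hx⟩
  exact ⟨F, fun y => hVself y F (hF y)⟩

theorem Prim.contMDiff {F : Y → Cm d} (hF : ∀ y, Prim w v F y) :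
    ContMDiff 𝓘(ℂ, Cm d) 𝓘(ℂ, Cm d) ω F := by
  intro y
  have ha : At (chartAt (Cm d) y : Chart d Y) y := ⟨chart_mem_atlas _ _, mem_chart_source _ _⟩
  have hd : DifferentiableOn ℂ (fun z => F ((chartAt (Cm d) y).symm z))
      (chartAt (Cm d) y).target := by
    intro z hz
    have h1 := (hF _ _ (At.of_target (chart_mem_atlas (Cm d) y) hz)).1
    rw [(chartAt (Cm d) y).right_inv hz] at h1
    exact h1.differentiableWithinAt
  have h1 := Vale.Agent.P268.analyticOnNhd_of_differentiableOn (chartAt (Cm d) y).open_target hd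
    _ ha.mem_target
  have h2 : ContMDiffAt 𝓘(ℂ, Cm d) 𝓘(ℂ, Cm d) ω (fun z => F ((chartAt (Cm d) y).symm z))
      (chartAt (Cm d) y y) := contMDiffAt_iff_contDiffAt.2 h1.contDiffAt
  have h3 : ContMDiffAt 𝓘(ℂ, Cm d) 𝓘(ℂ, Cm d) ω
      (fun x => F ((chartAt (Cm d) y).symm (chartAt (Cm d) y x))) y :=
    ContMDiffAt.comp y (g := fun z => F ((chartAt (Cm d) y).symm z)) h2 (chart_contMDiffAt ha)
  refine h3.congr_of_eventuallyEq ?_
  filter_upwards [(chartAt (Cm d) y).open_source.mem_nhds ha.2] with x hx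
  rw [(chartAt (Cm d) y).left_inv hx]

/-- the linear isomorphism of an invertible matrix -/
theorem exists_equiv_of_det {f : Cm d → Cm d} {z : Cm d} (hf : DifferentiableAt ℂ f z)
    (h : (jmat f z).det ≠ 0) : ∃ L : Cm d ≃L[ℂ] Cm d, HasFDerivAt f (L : Cm d →L[ℂ] Cm d) z := by
  have h1 : (fderiv ℂ f z).toLinearMap = Matrix.toLin' (jmat f z) := by
    ext u p
    show fderiv ℂ f z (Pi.single u 1) p = _
    rw [jmat_mulVec hf]
    rfl
  have h2 : LinearMap.det (fderiv ℂ f z).toLinearMap ≠ 0 := by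
    rw [h1, LinearMap.det_toLin']; exact h
  let L₀ : Cm d ≃ₗ[ℂ] Cm d := LinearEquiv.ofIsUnitDet (f := (fderiv ℂ f z).toLinearMap)
    (v := Pi.basisFun ℂ (Fin d)) (v' := Pi.basisFun ℂ (Fin d)) (by
      rw [LinearMap.det_toMatrix]
      exact isUnit_iff_ne_zero.2 h2)
  refine ⟨L₀.toContinuousLinearEquiv, ?_⟩
  have h3 : (L₀.toContinuousLinearEquiv : Cm d →L[ℂ] Cm d) = fderiv ℂ f z := by
    ext u p
    rfl
  rw [h3]
  exact hf.hasFDerivAt

omit [IsManifold 𝓘(ℂ, Cm d) ω Y] in
theorem Th_det (ho : IsOrthonormalFrame w v) {e : Chart d Y} {y : Y} (h : At e y) :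
    (Th w v e (e y)).det ≠ 0 := by
  intro h0
  have h1 := congrArg Matrix.det (Th_mul_Vm ho h)
  rw [Matrix.det_mul, h0, zero_mul, Matrix.det_one] at h1
  exact zero_ne_one h1

theorem Prim.isLocalHomeomorph (ho : IsOrthonormalFrame w v) {F : Y → Cm d}
    (hF : ∀ y, Prim w v F y) : IsLocalHomeomorph F := by
  have hc := Prim.contMDiff hF
  refine IsLocalHomeomorph.mk F fun y => ?_
  have ha : At (chartAt (Cm d) y : Chart d Y) y := ⟨chart_mem_atlas _ _, mem_chart_source _ _⟩
  set e := chartAt (Cm d) y with he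
  have h1 : ContMDiffAt 𝓘(ℂ, Cm d) 𝓘(ℂ, Cm d) ω (fun z => F (e.symm z)) (e y) :=
    (hc (e.symm (e y))).comp (e y) (chart_symm_contMDiffAt ha.1 ha.mem_target)
  rw [contMDiffAt_iff_contDiffAt] at h1
  obtain ⟨L, hL⟩ := exists_equiv_of_det (hF y e ha).1 (by
    rw [(hF y e ha).2]; exact Th_det ho ha)
  let g : OpenPartialHomeomorph (Cm d) (Cm d) := h1.toOpenPartialHomeomorph
    (fun z => F (e.symm z)) hL (by simp)
  have hg : ∀ z, g z = F (e.symm z) := fun z => rfl
  have hgs : e y ∈ g.source := ContDiffAt.mem_toOpenPartialHomeomorph_source h1 hL (by simp)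
  refine ⟨e.trans g, ?_, ?_⟩
  · rw [OpenPartialHomeomorph.trans_source]
    exact ⟨ha.2, hgs⟩
  · intro x hx
    rw [OpenPartialHomeomorph.trans_source] at hx
    show F x = g (e x)
    rw [hg, e.left_inv hx.1]

theorem jmat_mulVecLin (A : Matrix (Fin d) (Fin d) ℂ) {f : Cm d → Cm d} {z : Cm d}
    (hf : DifferentiableAt ℂ f z) : jmat (fun z => A.mulVec (f z)) z = A * jmat f z ∧
      DifferentiableAt ℂ (fun z => A.mulVec (f z)) z := by
  let L : Cm d →L[ℂ] Cm d := LinearMap.toContinuousLinearMap A.mulVecLin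
  have h1 : HasFDerivAt (fun z => A.mulVec (f z)) (L.comp (fderiv ℂ f z)) z :=
    L.hasFDerivAt.comp z hf.hasFDerivAt
  refine ⟨?_, h1.differentiableAt⟩
  ext p i
  rw [hasFDerivAt_of_matrix h1, Matrix.mul_apply]
  show (A.mulVec (fderiv ℂ f z (Pi.single i 1))) p = _
  rw [Matrix.mulVec, dotProduct]
  refine Finset.sum_congr rfl fun k _ => ?_
  rw [jmat_apply hf]

/-- **Equivariance**: a holomorphic isometry acts through the developing map by a unitary affine
map. -/
theorem Prim.equivariant [PreconnectedSpace Y] [Nonempty Y] (hw : IsHermitian w)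
    (hv : ∀ i, IsHolVF (v i)) (ho : IsOrthonormalFrame w v) {F : Y → Cm d}
    (hF : ∀ y, Prim w v F y) {r : Y → Y} (hr : ContMDiff 𝓘(ℂ, Cm d) 𝓘(ℂ, Cm d) ω r)
    (hriso : ∀ (e : Chart d Y) y, At e y → pullM r w e (e y) = w e (e y)) :
    ∃ (A : Matrix (Fin d) (Fin d) ℂ) (c : Cm d), A.transpose * A.map (starRingEnd ℂ) = 1 ∧
      ∀ y, F (r y) = A.mulVec (F y) + c := by
  have hFc := Prim.contMDiff hF
  have hGc : ContMDiff 𝓘(ℂ, Cm d) 𝓘(ℂ, Cm d) ω (fun y => F (r y)) := hFc.comp hr
  have hGd : ∀ (e : Chart d Y) y, At e y →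
      DifferentiableAt ℂ (fun z => F (r (e.symm z))) (e y) := fun e y h => holo_flat hGc h
  -- the Jacobian of `F ∘ r`
  let J : Chart d Y → Cm d → Matrix (Fin d) (Fin d) ℂ := fun e z =>
    jmat (fun z => F (r (e.symm z))) z
  have hJ1 : ∀ (e : Chart d Y) y, At e y →
      (J e (e y)).transpose * (J e (e y)).map (starRingEnd ℂ) = w e (e y) := by
    intro e y h
    have ha' : At (chartAt (Cm d) (r y) : Chart d Y) (r y) :=
      ⟨chart_mem_atlas _ _, mem_chart_source _ _⟩
    have e1 : (fun z => F (r (e.symm z))) =ᶠ[𝓝 (e y)] fun z =>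
        F ((chartAt (Cm d) (r y)).symm (chartAt (Cm d) (r y) (r (e.symm z)))) := by
      have hc : ContinuousAt (fun u => r (e.symm u)) (e y) :=
        (hr.continuous.continuousAt).comp (e.continuousAt_symm h.mem_target)
      have h2 : ∀ᶠ u in 𝓝 (e y), r (e.symm u) ∈ (chartAt (Cm d) (r y)).source := by
        refine hc.eventually ((chartAt (Cm d) (r y)).open_source.mem_nhds ?_)
        show r (e.symm (e y)) ∈ _
        rw [h.left_inv]
        exact ha'.2
      filter_upwards [h2] with u hu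
      rw [(chartAt (Cm d) (r y)).left_inv hu]
    have h4 : chartAt (Cm d) (r y) (r (e.symm (e y))) = chartAt (Cm d) (r y) (r y) := by
      rw [h.left_inv]
    have e2 : J e (e y) = Th w v (chartAt (Cm d) (r y)) (chartAt (Cm d) (r y) (r y)) *
        jmat (fun z => chartAt (Cm d) (r y) (r (e.symm z))) (e y) := by
      show jmat _ _ = _
      rw [jmat_congr e1, jmat_comp (τ := fun z => chartAt (Cm d) (r y) (r (e.symm z)))
        (σ := fun z => F ((chartAt (Cm d) (r y)).symm z))
        (by rw [h4]; exact (hF _ _ ha').1) (holo_chart hr h ha'), h4, (hF _ _ ha').2]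
    rw [e2, Matrix.transpose_mul, Matrix.map_mul, ← hriso e y h, pull_at r w h,
      ← Th_pull hw ho ha']
    simp only [Matrix.mul_assoc]
  have hJch : ∀ (e e' : Chart d Y) y, At e y → At e' y → J e (e y) = J e' (e' y) * jacM e e' y := by
    intro e e' y h h'
    have e1 : (fun z => F (r (e.symm z))) =ᶠ[𝓝 (e y)] fun z => F (r (e'.symm (e' (e.symm z)))) := by
      filter_upwards [h.nhds_at h'] with z hz
      rw [hz.2.2.left_inv]
    have e2 : e' (e.symm (e y)) = e' y := by rw [h.left_inv]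
    show jmat _ _ = _
    rw [jmat_congr e1, jmat_comp (τ := fun z => e' (e.symm z)) (σ := fun z => F (r (e'.symm z)))
      (by rw [e2]; exact hGd e' y h') (transition_differentiableAt h h'), e2]
    rfl
  -- the unitary matrices
  let B : Chart d Y → Cm d → Matrix (Fin d) (Fin d) ℂ := fun e z => J e z * (Vm v e z).transpose
  have hB1 : ∀ (e : Chart d Y) y, At e y →
      (B e (e y)).transpose * (B e (e y)).map (starRingEnd ℂ) = 1 := by
    intro e y h
    show (J e (e y) * (Vm v e (e y)).transpose).transpose *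
      (J e (e y) * (Vm v e (e y)).transpose).map (starRingEnd ℂ) = 1
    rw [Matrix.transpose_mul, Matrix.transpose_transpose, Matrix.map_mul]
    have h1 : (Vm v e (e y)).transpose.map (starRingEnd ℂ) = (Vm v e (e y)).conjTranspose := rfl
    rw [h1]
    calc Vm v e (e y) * (J e (e y)).transpose *
        ((J e (e y)).map (starRingEnd ℂ) * (Vm v e (e y)).conjTranspose)
        = Vm v e (e y) * (((J e (e y)).transpose * (J e (e y)).map (starRingEnd ℂ)) *
            (Vm v e (e y)).conjTranspose) := by simp only [Matrix.mul_assoc]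
      _ = 1 := by rw [hJ1 e y h, frame_mul ho h]
  have hBch : ∀ (e e' : Chart d Y) y, At e y → At e' y → B e (e y) = B e' (e' y) := by
    intro e e' y h h'
    show J e (e y) * (Vm v e (e y)).transpose = J e' (e' y) * (Vm v e' (e' y)).transpose
    rw [hJch e e' y h h', Vm_change hv h h', Matrix.transpose_mul, Matrix.transpose_transpose,
      Matrix.mul_assoc]
  have hBloc : ∀ (e : Chart d Y) y, At e y → ∀ᶠ z in 𝓝 (e y), B e z = B e (e y) := by
    intro e y h
    have hdiff : ∀ᶠ z in 𝓝 (e y), ∀ p i, DifferentiableAt ℂ (fun z => B e z p i) z := by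
      filter_upwards [h.nhds_target] with z hz p i
      have ha := At.of_target h.1 hz
      have h1 : ContMDiffAt 𝓘(ℂ, Cm d) 𝓘(ℂ, Cm d) ω (fun z => F (r (e.symm z))) z :=
        (hGc (e.symm z)).comp z (chart_symm_contMDiffAt h.1 hz)
      rw [contMDiffAt_iff_contDiffAt] at h1
      have h2 : ∀ k, DifferentiableAt ℂ (fun z => J e z p k) z := fun k =>
        (jmat_holo h1 p k).differentiableAt (by simp)
      have h3 : ∀ k, DifferentiableAt ℂ (fun z => Vm v e z i k) z := fun k => by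
        have := (hv i).holo e _ ha
        rw [e.right_inv hz] at this
        exact (differentiableAt_pi.1 this.differentiableAt) k
      have h4 : (fun z => B e z p i) = fun z => ∑ k, J e z p k * Vm v e z i k := by
        funext z
        rfl
      rw [h4]
      exact DifferentiableAt.fun_sum fun k _ => (h2 k).mul (h3 k)
    have hcol : ∀ i, ∀ᶠ z in 𝓝 (e y), ∀ p, B e z p i = B e (e y) p i := by
      intro i
      let f : Cm d → EuclideanSpace ℂ (Fin d) := fun z => WithLp.toLp 2 (fun p => B e z p i)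
      have hnorm : ∀ z ∈ e.target, ‖f z‖ = 1 := by
        intro z hz
        have ha := At.of_target h.1 hz
        have h1 := congrFun (congrFun (hB1 e _ ha) i) i
        rw [e.right_inv hz, Matrix.mul_apply, Matrix.one_apply_eq] at h1
        have h2 : ((‖f z‖ ^ 2 : ℝ) : ℂ) = 1 := by
          rw [EuclideanSpace.norm_sq_eq, ← h1]
          push_cast
          refine Finset.sum_congr rfl fun p _ => ?_
          show ((‖B e z p i‖ : ℝ) : ℂ) ^ 2 = B e z p i * (starRingEnd ℂ) (B e z p i)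
          rw [Complex.mul_conj']
        have h3 : ‖f z‖ ^ 2 = 1 := by exact_mod_cast h2
        exact (pow_eq_one_iff_of_nonneg (norm_nonneg _) two_ne_zero).1 h3
      have hfd : ∀ᶠ z in 𝓝 (e y), DifferentiableAt ℂ f z := by
        filter_upwards [hdiff] with z hz
        have h1 : DifferentiableAt ℂ (fun z => fun p => B e z p i) z :=
          differentiableAt_pi.2 fun p => hz p i
        exact ((EuclideanSpace.equiv (Fin d) ℂ).symm.differentiableAt).comp z h1
      have hmax : IsLocalMax (norm ∘ f) (e y) := by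
        filter_upwards [h.nhds_target] with z hz
        show ‖f z‖ ≤ ‖f (e y)‖
        rw [hnorm z hz, hnorm _ h.mem_target]
      filter_upwards [Complex.eventually_eq_of_isLocalMax_norm hfd hmax] with z hz p
      exact congrFun (congrArg WithLp.ofLp hz) p
    filter_upwards [eventually_all.2 hcol] with z hz
    ext p i
    exact hz i p
  -- globalisation
  have hlc : ∀ y, ∀ᶠ y' in 𝓝 y, B (chartAt (Cm d) y') (chartAt (Cm d) y' y') =
      B (chartAt (Cm d) y) (chartAt (Cm d) y y) := by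
    intro y
    have ha : At (chartAt (Cm d) y : Chart d Y) y := ⟨chart_mem_atlas _ _, mem_chart_source _ _⟩
    filter_upwards [((chartAt (Cm d) y).continuousAt ha.2).eventually (hBloc _ y ha),
      (chartAt (Cm d) y).open_source.mem_nhds ha.2] with y' h1 h2
    rw [hBch _ (chartAt (Cm d) y) y' ⟨chart_mem_atlas _ _, mem_chart_source _ _⟩
      ⟨chart_mem_atlas _ _, h2⟩, h1]
  obtain ⟨y₀⟩ := ‹Nonempty Y›
  have hconst : ∀ y, B (chartAt (Cm d) y) (chartAt (Cm d) y y) =
      B (chartAt (Cm d) y₀) (chartAt (Cm d) y₀ y₀) := by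
    intro y
    have h1 : IsLocallyConstant fun y => B (chartAt (Cm d) y) (chartAt (Cm d) y y) :=
      (IsLocallyConstant.iff_eventually_eq _).2 hlc
    exact h1.apply_eq_of_preconnectedSpace y y₀
  set A := B (chartAt (Cm d) y₀) (chartAt (Cm d) y₀ y₀) with hA
  have hAe : ∀ (e : Chart d Y) y, At e y → J e (e y) = A * Th w v e (e y) := by
    intro e y h
    have h1 : B e (e y) = A := by
      rw [hBch e (chartAt (Cm d) y) y h ⟨chart_mem_atlas _ _, mem_chart_source _ _⟩, hconst]
    rw [← h1]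
    show _ = J e (e y) * (Vm v e (e y)).transpose * Th w v e (e y)
    rw [Matrix.mul_assoc, mul_eq_one_comm.1 (Th_mul_Vm ho h), Matrix.mul_one]
  have hlc2 : ∀ y, ∀ᶠ y' in 𝓝 y, F (r y') - A.mulVec (F y') = F (r y) - A.mulVec (F y) := by
    intro y
    have ha : At (chartAt (Cm d) y : Chart d Y) y := ⟨chart_mem_atlas _ _, mem_chart_source _ _⟩
    obtain ⟨δ, hδ, hδt⟩ := Metric.isOpen_iff.1 (chartAt (Cm d) y).open_target
      (chartAt (Cm d) y y) ha.mem_target
    have hat : ∀ z ∈ ball (chartAt (Cm d) y y) δ, At (chartAt (Cm d) y : Chart d Y)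
        ((chartAt (Cm d) y).symm z) := fun z hz => At.of_target (chart_mem_atlas _ _) (hδt hz)
    have hrz : ∀ z ∈ ball (chartAt (Cm d) y y) δ,
        chartAt (Cm d) y ((chartAt (Cm d) y).symm z) = z := fun z hz =>
      (chartAt (Cm d) y).right_inv (hδt hz)
    have hFz : ∀ z ∈ ball (chartAt (Cm d) y y) δ,
        DifferentiableAt ℂ (fun z => F ((chartAt (Cm d) y).symm z)) z ∧
        jmat (fun z => F ((chartAt (Cm d) y).symm z)) z = Th w v (chartAt (Cm d) y) z := by
      intro z hz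
      have := hF _ _ (hat z hz)
      rwa [hrz z hz] at this
    obtain ⟨c, hc⟩ := exists_const_of_jmat
      (f := fun z => F (r ((chartAt (Cm d) y).symm z)))
      (g := fun z => A.mulVec (F ((chartAt (Cm d) y).symm z)))
      isOpen_ball (convex_ball (chartAt (Cm d) y y) δ).isPreconnected
      (fun z hz => by
        have := hGd _ _ (hat z hz)
        rwa [hrz z hz] at this)
      (fun z hz => (jmat_mulVecLin A (hFz z hz).1).2)
      (fun z hz => by
        have := hAe _ _ (hat z hz)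
        rw [hrz z hz] at this
        rw [(jmat_mulVecLin A (hFz z hz).1).1, (hFz z hz).2]
        exact this)
    have hcy : ∀ y', chartAt (Cm d) y y' ∈ ball (chartAt (Cm d) y y) δ →
        y' ∈ (chartAt (Cm d) y).source → F (r y') - A.mulVec (F y') = c := by
      intro y' h1 h2
      have h3 := hc _ h1
      rw [(chartAt (Cm d) y).left_inv h2] at h3
      rw [h3]
      abel
    filter_upwards [((chartAt (Cm d) y).continuousAt ha.2).eventually (ball_mem_nhds _ hδ),
      (chartAt (Cm d) y).open_source.mem_nhds ha.2] with y' h1 h2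
    rw [hcy y' h1 h2, hcy y (mem_ball_self hδ) ha.2]
  refine ⟨A, F (r y₀) - A.mulVec (F y₀), hB1 _ _ ⟨chart_mem_atlas _ _, mem_chart_source _ _⟩,
    fun y => ?_⟩
  have h1 : IsLocallyConstant fun y => F (r y) - A.mulVec (F y) :=
    (IsLocallyConstant.iff_eventually_eq _).2 hlc2
  have h2 := h1.apply_eq_of_preconnectedSpace y y₀
  rw [← h2]
  abel

/-- A unitary affine map as an isometry of the Euclidean space. -/
def affIso (A : Matrix (Fin d) (Fin d) ℂ) (hA : A.transpose * A.map (starRingEnd ℂ) = 1)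
    (c : Cm d) : EuclideanSpace ℂ (Fin d) ≃ᵢ EuclideanSpace ℂ (Fin d) :=
  IsometryEquiv.mk' (fun x => WithLp.toLp 2 (A.mulVec x.ofLp + c))
    (fun x => WithLp.toLp 2 (A⁻¹.mulVec (x.ofLp - c)))
    (fun x => by
      have hdet : IsUnit A.det := by
        rw [isUnit_iff_ne_zero]
        intro h0
        have h1 := congrArg Matrix.det hA
        rw [Matrix.det_mul, Matrix.det_transpose, h0, zero_mul, Matrix.det_one] at h1
        exact zero_ne_one h1
      show WithLp.toLp 2 (A.mulVec (A⁻¹.mulVec (x.ofLp - c)) + c) = x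
      rw [Matrix.mulVec_mulVec, Matrix.mul_nonsing_inv _ hdet, Matrix.one_mulVec, sub_add_cancel])
    (Isometry.of_dist_eq fun x y => by
      rw [dist_eq_norm, dist_eq_norm]
      have h1 : (WithLp.toLp 2 (A.mulVec x.ofLp + c) : EuclideanSpace ℂ (Fin d)) -
          WithLp.toLp 2 (A.mulVec y.ofLp + c) = WithLp.toLp 2 (A.mulVec (x - y).ofLp) := by
        rw [← WithLp.toLp_sub]
        congr 1
        rw [add_sub_add_right_eq_sub, ← Matrix.mulVec_sub]
        rfl
      rw [h1, norm_toLp_mulVec hA])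

/-- **D1-DEV.** A simply connected Kähler manifold with an orthonormal frame of parallel fields and
a cocompact group of holomorphic isometries is isometric to flat `ℂ^d`. -/
theorem dev [T2Space Y] [SimplyConnectedSpace Y] (hw : IsKahler w) (hv : ∀ i, IsParVF w (v i))
    (ho : IsOrthonormalFrame w v) {G : Type*} [Group G] (ρ : G →* Equiv.Perm Y)
    (hol : ∀ g, ContMDiff 𝓘(ℂ, Cm d) 𝓘(ℂ, Cm d) ω (ρ g))
    (iso : ∀ g (e : Chart d Y) y, At e y → pullM (ρ g) w e (e y) = w e (e y)) {K : Set Y}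
    (hK : IsCompact K) (hKG : ∀ y, ∃ g, ρ g y ∈ K) :
    ∃ D : Y ≃ₜ Cm d, ContMDiff 𝓘(ℂ, Cm d) 𝓘(ℂ, Cm d) ω D ∧
      ContMDiff 𝓘(ℂ, Cm d) 𝓘(ℂ, Cm d) ω D.symm ∧
      ∀ (e : Chart d Y) y, At e y → w e (e y) = pullM D (stdM d) e (e y) := by
  have hH := hw.toIsHermitian
  obtain ⟨F, hF⟩ := exists_prim hw hv
  have hFc := Prim.contMDiff hF
  have hloc := Prim.isLocalHomeomorph ho hF
  have hne : Nonempty Y := inferInstance
  let ℓ : Cm d ≃ₜ EuclideanSpace ℂ (Fin d) := (EuclideanSpace.equiv (Fin d) ℂ).symm.toHomeomorph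
  have hℓ : ∀ u, ℓ u = WithLp.toLp 2 u := fun _ => rfl
  have hlocf : IsLocalHomeomorph (fun y => ℓ (F y)) := ℓ.isLocalHomeomorph.comp hloc
  obtain ⟨H, hH'⟩ := homeo_of_cocompact hlocf hK (fun y => by
    obtain ⟨g, hg⟩ := hKG y
    obtain ⟨A, c, hA, hAc⟩ := Prim.equivariant hH (fun i => (hv i).toIsHolVF) ho hF (hol g) (iso g)
    let φ : Y ≃ₜ Y :=
      { toEquiv := ρ g
        continuous_toFun := (hol g).continuous
        continuous_invFun := by
          have h1 : ((ρ g).symm : Y → Y) = ρ g⁻¹ := by rw [map_inv]; rfl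
          show Continuous ((ρ g).symm : Y → Y)
          rw [h1]
          exact (hol g⁻¹).continuous }
    refine ⟨φ, affIso A hA c, hg, fun z => ?_⟩
    show ℓ (F (ρ g z)) = WithLp.toLp 2 (A.mulVec (F z) + c)
    rw [hAc, hℓ])
  let D : Y ≃ₜ Cm d := H.trans ℓ.symm
  have hD : ∀ y, D y = F y := by
    intro y
    show ℓ.symm (H y) = F y
    rw [hH', ℓ.symm_apply_apply]
  have hDF : (D : Y → Cm d) = F := funext hD
  refine ⟨D, by rw [hDF]; exact hFc, ?_, ?_⟩
  · intro z
    set y := D.symm z with hy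
    have ha : At (chartAt (Cm d) y : Chart d Y) y := ⟨chart_mem_atlas _ _, mem_chart_source _ _⟩
    set e := chartAt (Cm d) y with he
    have hyz : F y = z := by rw [← hD, hy, D.apply_symm_apply]
    -- the local representation of `D` and its inverse
    let g : OpenPartialHomeomorph (Cm d) (Cm d) := e.symm.trans D.toOpenPartialHomeomorph
    have hg : (g : Cm d → Cm d) = fun u => F (e.symm u) := by
      funext u
      show D (e.symm u) = _
      rw [hD]
    have hgt : z ∈ g.target := by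
      have : e y ∈ g.source := by
        show e y ∈ (e.symm.trans D.toOpenPartialHomeomorph).source
        rw [OpenPartialHomeomorph.trans_source]
        exact ⟨ha.mem_target, mem_univ _⟩
      have h2 := g.map_source this
      rw [hg] at h2
      simp only at h2
      rwa [ha.left_inv, hyz] at h2
    have hgs : g.symm z = e y := rfl
    obtain ⟨L, hL⟩ := exists_equiv_of_det (hF y e ha).1 (by
      rw [(hF y e ha).2]; exact Th_det ho ha)
    have h1 : ContMDiffAt 𝓘(ℂ, Cm d) 𝓘(ℂ, Cm d) ω (fun z => F (e.symm z)) (e y) :=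
      (hFc (e.symm (e y))).comp (e y) (chart_symm_contMDiffAt ha.1 ha.mem_target)
    rw [contMDiffAt_iff_contDiffAt] at h1
    have h2 : ContDiffAt ℂ ω g.symm z := g.contDiffAt_symm hgt
      (by rw [hgs, hg]; exact hL) (by rw [hgs, hg]; exact h1)
    have h3 : ContMDiffAt 𝓘(ℂ, Cm d) 𝓘(ℂ, Cm d) ω (fun u => e.symm (g.symm u)) z := by
      refine ContMDiffAt.comp z (g := e.symm) ?_ (contMDiffAt_iff_contDiffAt.2 h2)
      rw [hgs]
      exact chart_symm_contMDiffAt ha.1 ha.mem_target
    refine h3.congr_of_eventuallyEq ?_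
    filter_upwards [g.open_target.mem_nhds hgt] with u hu
    show D.symm u = e.symm (e (D.symm u))
    have h4 : u ∈ (e.symm.trans D.toOpenPartialHomeomorph).target := hu
    rw [OpenPartialHomeomorph.trans_target] at h4
    have h5 : D.symm u ∈ e.source := h4.2
    exact (e.left_inv h5).symm
  · intro e y h
    rw [hDF, pull_flat, h.left_inv, (hF y e h).2, Th_pull hH ho h]

end Global

end Vale.Agent.P299.H227
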