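import Vale.Agent.P299.H227.Fld
import Vale.Agent.P299.H227.Dev

/-!
# P299, D1-DEV0: the flat factor `Y 0`

Parallel fields of the product `M` push down to the factors; if they span the tangent spaces of
the factor `Y i0` and a cocompact group acts on `Y i0` by holomorphic isometries, then `Y i0` is
isometric to flat `ℂ^d`.
-/

open scoped Manifold ContDiff ComplexOrder Topology MatrixOrder
open Complex Vale.Agent.P272.K Vale.Agent.P278.H837 Vale.Agent.P299.D Vale.Agent.P299.H956

set_option linter.all false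

noncomputable section

namespace Vale.Agent.P299.H227.Fld

section frame
variable {d : ℕ} {Y : Type*} [TopologicalSpace Y] [ChartedSpace (Cm d) Y]
  [IsManifold 𝓘(ℂ, Cm d) ω Y] [PreconnectedSpace Y] {w : FormM d Y}

/-- a matrix `U` with `U W U^* = 1` -/
lemma exists_orth {W : Matrix (Fin d) (Fin d) ℂ} (hW : W.PosDef) :
    ∃ U : Matrix (Fin d) (Fin d) ℂ, U * W * U.conjTranspose = 1 := by
  obtain ⟨S, hS⟩ : ∃ S, W = S.conjTranspose * S := by
    obtain ⟨S, hS⟩ := CStarAlgebra.nonneg_iff_eq_star_mul_self.mp hW.posSemidef.nonneg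
    exact ⟨S, hS⟩
  have hu : IsUnit W.det := (Matrix.isUnit_iff_isUnit_det W).1 hW.isUnit
  have hSu : IsUnit S.det := by
    rw [hS, Matrix.det_mul] at hu
    exact isUnit_of_mul_isUnit_right hu
  refine ⟨(S⁻¹).conjTranspose, ?_⟩
  rw [Matrix.conjTranspose_conjTranspose, hS, ← Matrix.mul_assoc, ← Matrix.conjTranspose_mul,
    Matrix.mul_nonsing_inv _ hSu, Matrix.conjTranspose_one, Matrix.one_mul,
    Matrix.mul_nonsing_inv _ hSu]

/-- parallel fields which span at one point contain an orthonormal frame -/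
theorem exists_frame (hw : IsHermitian w) {e0 : Chart d Y} {y0 : Y} (h0 : At e0 y0)
    (hspan : ∀ u : Cm d, ∃ v, IsParVF w v ∧ v e0 (e0 y0) = u) :
    ∃ v : Fin d → VField d Y, (∀ i, IsParVF w (v i)) ∧ IsOrthonormalFrame w v := by
  obtain ⟨U, hU⟩ := exists_orth (hw.posDef e0 y0 h0)
  choose v hv hvu using fun i => hspan (U i)
  refine ⟨v, hv, fun e y h i j => ?_⟩
  have h1 : ∑ k, ∑ l, v i e (e y) k * w e (e y) k l * (starRingEnd ℂ) (v j e (e y) l) =
      ip (w e (e y)) (v i e (e y)) (v j e (e y)) := by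
    rw [ip_eq_sum]
    refine Finset.sum_congr rfl fun k _ => ?_
    rw [Finset.mul_sum]
    exact Finset.sum_congr rfl fun l _ => by ring
  rw [h1, ip_par_const hw (hv i) (hv j) h h0, hvu, hvu, ip_eq_sum]
  have h2 := congrFun (congrFun hU i) j
  rw [Matrix.one_apply, Matrix.mul_assoc, Matrix.mul_apply] at h2
  rw [← h2]
  refine Finset.sum_congr rfl fun k _ => ?_
  rw [Matrix.mul_apply]
  rfl

end frame

section push
variable {n : ℕ} {M : Type*} [TopologicalSpace M] [ChartedSpace (Cm n) M]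
  [IsManifold 𝓘(ℂ, Cm n) ω M] {ι : Type} [Fintype ι] [DecidableEq ι] {d : ι → ℕ} {Y : ι → Type*}
  [∀ i, TopologicalSpace (Y i)] [∀ i, ChartedSpace (Cm (d i)) (Y i)]
  [∀ i, IsManifold 𝓘(ℂ, Cm (d i)) ω (Y i)] {F : ∀ i, M → Y i} {i : ι}

/-- a slice through the factor `Y i` -/
structure IsSlice (F : ∀ i, M → Y i) (i : ι) (s : Y i → M) : Prop where
  hol : ContMDiff 𝓘(ℂ, Cm (d i)) 𝓘(ℂ, Cm n) ω s
  self : ∀ y, F i (s y) = y
  other : ∀ j, j ≠ i → ∀ y y', F j (s y) = F j (s y')

/-- the push forward of a vector field along a slice -/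
def pushV (F : ∀ i, M → Y i) (i : ι) (s : Y i → M) (V : VField n M) : VField (d i) (Y i) :=
  fun e z => (jacF (F i) (chartAt (Cm n) (s (e.symm z))) e (s (e.symm z))).mulVec
    (V (chartAt (Cm n) (s (e.symm z))) (chartAt (Cm n) (s (e.symm z)) (s (e.symm z))))

variable {s : Y i → M} {V : VField n M}

lemma pushV_eq (hF : Dec (n := n) (d := d) F) (hs : IsSlice (n := n) (d := d) F i s)
    (hV : IsHolVF V) {e : Chart (d i) (Y i)} {y : Y i} (h : At e y) {c : Chart n M}
    (hc : At c (s y)) : pushV F i s V e (e y) = (jacF (F i) c e (s y)).mulVec (V c (c (s y))) := by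
  have h1 : At e (F i (s y)) := by rw [hs.self]; exact h
  unfold pushV
  rw [h.left_inv, hV.change _ _ _ hc (at_chartAt (s y)), Matrix.mulVec_mulVec,
    ← jacF_left (hF.hol i).contMDiffAt hc (at_chartAt (s y)) h1]

lemma jac_slice_self (hF : Dec (n := n) (d := d) F) (hs : IsSlice (n := n) (d := d) F i s)
    {e : Chart (d i) (Y i)} {y : Y i} (h : At e y) {c : Chart n M} (hc : At c (s y)) :
    jacF (F i) c e (s y) * jacF s e c y = 1 := by
  have h1 : At e (F i (s y)) := by rw [hs.self]; exact h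
  rw [← jacF_comp (f := s) (g := F i) hs.hol.contMDiffAt (hF.hol i).contMDiffAt h hc h1]
  have : (fun y => F i (s y)) = fun y => y := funext hs.self
  rw [this, jacF_id, jacM_self h]

lemma jac_slice_other (hF : Dec (n := n) (d := d) F) (hs : IsSlice (n := n) (d := d) F i s)
    {e : Chart (d i) (Y i)} {y : Y i} (h : At e y) {c : Chart n M} (hc : At c (s y)) {j : ι}
    (hj : j ≠ i) {e' : Chart (d j) (Y j)} (h' : At e' (F j (s y))) :
    jacF (F j) c e' (s y) * jacF s e c y = 0 := by
  rw [← jacF_comp (f := s) (g := F j) hs.hol.contMDiffAt (hF.hol j).contMDiffAt h hc h']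
  have : (fun y' => F j (s y')) = fun _ => F j (s y) := funext fun y' => hs.other j hj y' y
  rw [this]
  ext p q
  simp [jacF]

variable {wM : FormM n M} {wY : ∀ i, FormM (d i) (Y i)}

lemma lower_push (hF : Dec (n := n) (d := d) F) (hs : IsSlice (n := n) (d := d) F i s)
    (hw : IsProd F wM wY) (hY : ∀ i, IsForm (wY i)) (hV : IsHolVF V)
    {e : Chart (d i) (Y i)} {y : Y i} (h : At e y) {c : Chart n M} (hc : At c (s y)) :
    lowerV (wY i) (pushV F i s V) e (e y) =
      (jacF s e c y).transpose.mulVec (lowerV wM V c (c (s y))) := by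
  have h' : ∀ j, At (Function.update (fun j => chartAt (Cm (d j)) (F j (s y))) i e j)
      (F j (s y)) := by
    intro j
    by_cases hj : j = i
    · subst hj; rw [Function.update_self, hs.self]; exact h
    · rw [Function.update_of_ne hj]; exact at_chartAt _
  rw [lowerV_eq, lowerV_eq, pushV_eq hF hs hV h hc, hF.prod_eq hw hY hc h', Matrix.mulVec_mulVec,
    Matrix.mul_sum, Matrix.sum_mulVec, Finset.sum_eq_single i]
  · rw [Function.update_self, ← Matrix.mul_assoc, ← Matrix.mul_assoc, ← Matrix.transpose_mul,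
      jac_slice_self hF hs h hc, Matrix.transpose_one, Matrix.one_mul, hs.self,
      ← Matrix.mulVec_mulVec, map_mulVec_star]
  · intro j _ hj
    rw [Function.update_of_ne hj, ← Matrix.mul_assoc, ← Matrix.mul_assoc, ← Matrix.transpose_mul,
      jac_slice_other hF hs h hc hj (at_chartAt _)]
    simp
  · intro h; exact absurd (Finset.mem_univ i) h

/-- the push forward of a parallel field is parallel -/
theorem pushV_par (hF : Dec (n := n) (d := d) F) (hs : IsSlice (n := n) (d := d) F i s)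
    (hw : IsProd F wM wY) (hY : ∀ i, IsForm (wY i)) (hV : IsParVF wM V) :
    IsParVF (wY i) (pushV F i s V) where
  holo e y h := by
    have hc := at_chartAt (n := n) (s y)
    set c := chartAt (Cm n) (s y)
    have he : At e (F i (s y)) := by rw [hs.self]; exact h
    have h1 : AnalyticAt ℂ (fun z => c (s (e.symm z))) (e y) :=
      (rep_hol hs.hol.contMDiffAt h hc).analyticAt
    have h2 : AnalyticAt ℂ (fun z => (jmR (fun z => e (F i (c.symm z))) z).mulVec (V c z))
        (c (s y)) :=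
      analytic_mulVec (fun a b => (jmR_holo (rep_hol (hF.hol i).contMDiffAt hc he) a b).analyticAt)
        (hV.holo c _ hc)
    have h3 : AnalyticAt ℂ (fun z => (jmR (fun z => e (F i (c.symm z))) (c (s (e.symm z)))).mulVec
        (V c (c (s (e.symm z))))) (e y) := by
      refine AnalyticAt.comp' (g := fun z => (jmR (fun z => e (F i (c.symm z))) z).mulVec (V c z))
        ?_ h1
      rw [h.left_inv]
      exact h2
    refine h3.congr ?_
    filter_upwards [nhds_at_map hs.hol.continuous.continuousAt h hc] with z hz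
    have := pushV_eq hF hs hV.toIsHolVF hz.2.1 hz.2.2
    rw [e.right_inv hz.1, jacF_eq] at this
    rw [this]
  change e e' y h h' := by
    have hc := at_chartAt (n := n) (s y)
    have he : At e (F i (s y)) := by rw [hs.self]; exact h
    have he' : At e' (F i (s y)) := by rw [hs.self]; exact h'
    rw [pushV_eq hF hs hV.toIsHolVF h hc, pushV_eq hF hs hV.toIsHolVF h' hc,
      jacF_right (hF.hol i).contMDiffAt hc he he', hs.self, Matrix.mulVec_mulVec]
  holo' e y h := by
    have hc := at_chartAt (n := n) (s y)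
    set c := chartAt (Cm n) (s y)
    have h1 : AnalyticAt ℂ (fun z => c (s (e.symm z))) (e y) :=
      (rep_hol hs.hol.contMDiffAt h hc).analyticAt
    have h2 : AnalyticAt ℂ (fun z => lowerV wM V c (c (s (e.symm z)))) (e y) := by
      refine AnalyticAt.comp' (g := fun z => lowerV wM V c z) ?_ h1
      rw [h.left_inv]
      exact hV.holo' c _ hc
    have h3 : AnalyticAt ℂ (fun z => ((jmR (fun z => c (s (e.symm z))) z).transpose).mulVec
        (lowerV wM V c (c (s (e.symm z))))) (e y) :=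
      analytic_mulVec (fun a b => (jmR_holo (rep_hol hs.hol.contMDiffAt h hc) b a).analyticAt) h2
    refine h3.congr ?_
    filter_upwards [nhds_at_map hs.hol.continuous.continuousAt h hc] with z hz
    have := lower_push hF hs hw hY hV.toIsHolVF hz.2.1 hz.2.2
    rw [e.right_inv hz.1, jacF_eq, e.right_inv hz.1] at this
    rw [this]

/-- **D1-DEV0** -/
theorem exists_dev0 [T2Space (Y i)] [SimplyConnectedSpace (Y i)]
    (hF : Dec (n := n) (d := d) F) (hs : IsSlice (n := n) (d := d) F i s)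
    (hw : IsProd F wM wY) (hY : ∀ i, IsKahler (wY i)) {P0 : FormM n M}
    (hspan : ∀ e x, At e x → ∀ u, ∃ v, IsParVF wM v ∧ v e (e x) = (P0 e (e x)).mulVec u)
    (hJ : ∀ (e : Chart n M) (m : M) (e' : Chart (d i) (Y i)), At e m → At e' (F i m) →
      jacF (F i) e e' m * P0 e (e m) = jacF (F i) e e' m)
    {G : Type*} [Group G] (ρ : G →* Equiv.Perm (Y i))
    (hol : ∀ g, ContMDiff 𝓘(ℂ, Cm (d i)) 𝓘(ℂ, Cm (d i)) ω (ρ g))
    (iso : ∀ g (e : Chart (d i) (Y i)) y, At e y → pullM (ρ g) (wY i) e (e y) = wY i e (e y))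
    {K : Set (Y i)} (hK : IsCompact K) (hKG : ∀ y, ∃ g, ρ g y ∈ K) :
    ∃ D : Y i ≃ₜ Cm (d i), ContMDiff 𝓘(ℂ, Cm (d i)) 𝓘(ℂ, Cm (d i)) ω D ∧
      ContMDiff 𝓘(ℂ, Cm (d i)) 𝓘(ℂ, Cm (d i)) ω D.symm ∧
      ∀ (e : Chart (d i) (Y i)) y, At e y → wY i e (e y) = pullM D (stdM (d i)) e (e y) := by
  obtain ⟨y0⟩ := (inferInstance : Nonempty (Y i))
  have h0 : At (chartAt (Cm (d i)) y0) y0 := at_chartAt y0
  have h0' : At (chartAt (Cm (d i)) y0) (F i (s y0)) := by rw [hs.self]; exact h0
  have hc := at_chartAt (n := n) (s y0)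
  obtain ⟨v, hv, ho⟩ := exists_frame (hY i).toIsHermitian h0 (fun u => by
    obtain ⟨R, hR⟩ := hF.exists_right hc h0'
    obtain ⟨V, hV, hVu⟩ := hspan _ _ hc (R.mulVec u)
    refine ⟨pushV F i s V, pushV_par hF hs hw (fun i => (hY i).toIsHermitian.isForm) hV, ?_⟩
    rw [pushV_eq hF hs hV.toIsHolVF h0 hc, hVu, Matrix.mulVec_mulVec, Matrix.mulVec_mulVec,
      hJ _ _ _ hc h0', hR, Matrix.one_mulVec])
  exact dev (hY i) hv ho ρ hol iso hK hKG

end push

/-- cocompactness of the deck group on the factors -/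
theorem exists_compact_of_deck {M X Y : Type*} [TopologicalSpace M] [TopologicalSpace X]
    [TopologicalSpace Y] [LocallyCompactSpace M] [CompactSpace X] {π : M → X} (hπ : IsOpenMap π)
    (hs : Function.Surjective π)
    (gal : ∀ m m' : M, π m = π m' ↔ ∃ γ : Deck π, (γ : M ≃ₜ M) m = m') {f : M → Y}
    (hf : Continuous f) (hfs : Function.Surjective f) {ρ : Deck π →* Equiv.Perm Y}
    (equiv : ∀ (γ : Deck π) m, f ((γ : M ≃ₜ M) m) = ρ γ (f m)) :
    ∃ K : Set Y, IsCompact K ∧ ∀ y, ∃ g, ρ g y ∈ K := by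
  obtain ⟨K, hK, hKX⟩ := exists_compact_onto hπ hs
  refine ⟨f '' K, hK.image hf, fun y => ?_⟩
  obtain ⟨m, rfl⟩ := hfs y
  have h1 : π m ∈ π '' K := by rw [hKX]; exact Set.mem_univ _
  obtain ⟨c, hcK, hcπ⟩ := h1
  obtain ⟨g, hg⟩ := (gal m c).1 hcπ.symm
  exact ⟨g, c, hcK, by rw [← equiv, hg]⟩

end Vale.Agent.P299.H227.Fld
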